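import Vale.Agent.P141.H64.ZFamA
import Vale.Agent.P141.H331.SkelTZ

/-!
# P141, line (A), gap part: leaf `MkT ZFam`
-/

namespace Vale.Agent.P141.H64

open Finset Matrix Vale.Agent.P141.PL
open Vale.Agent.P141.H736 (Path)
open Vale.Agent.P141.H958 (PackQ lbs)
open Vale.Agent.P141.H48 (US ES BSl)
open Vale.Agent.P141.H205 (FamK ownK pwrK)
open Vale.Agent.P141.H971 (Fam0)
open Vale.Agent.P141.H401
open Vale.Agent.P141.H331 (MkT ZFam lsz)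

noncomputable section

open scoped Classical

theorem packQ_mono {N : ℕ} {R S : ℤ} {Q : ℕ → ℤ → ℤ → Prop} {c c' : ℝ} (h : PackQ N R S Q c)
    (hc : c ≤ c') : PackQ N R S Q c' := fun K hK n m =>
  (h K hK n m).trans (mul_le_mul_of_nonneg_right hc (by positivity))

/-- larger numbers -/
theorem fam0_mono3 {N : ℕ} {R S : ℤ} {X : Finset ℤ} {q : ℤ → ℕ → ℤ → ℤ → Prop}
    {A : ℤ → ℕ → ℤ → ℤ → ℝ} {cP G D cP' G' D' : ℝ} (h : Fam0 N R S X q A cP G D)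
    (hc : cP ≤ cP') (hG : G ≤ G') (hD : D ≤ D') : Fam0 N R S X q A cP' G' D' :=
  ⟨h.path, h.zero, fun i hi => packQ_mono (h.pack i hi) hc, h.own.trans hG, h.pow.trans hD⟩

/-- a multiple of a family -/
theorem famK_smul {κ : Type*} [Fintype κ] {N : ℕ} {R S : ℤ} {X : Finset ℤ}
    {q : ℤ → ℕ → ℤ → ℤ → Prop} {A : ℤ → ℕ → ℤ → ℤ → κ → ℝ} {cP G D : ℝ} (a : ℝ)
    (h : FamK N R S X q A cP G D) :
    FamK N R S X q (fun i k x y => a • A i k x y) cP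
      (∑ i ∈ X, ownK N R S (q i) (fun k x y => a • A i k x y)) (a ^ 2 * D) where
  path := fun i hi l k hk n hn m hm hq x hx y hy => by
    have h1 : A i (k + 1) x y l = A i k x y l := h.path i hi l k hk n hn m hm hq x hx y hy
    show a * A i (k + 1) x y l = a * A i k x y l
    rw [h1]
  zero := fun i hi => by
    funext x y
    rw [h.zero i hi]
    exact smul_zero a
  pack := h.pack
  own := le_rfl
  pow := by
    simp only [pwrK_smul, ← mul_sum]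
    exact mul_le_mul_of_nonneg_left h.pow (sq_nonneg _)

/-- **Leaf `MkT ZFam`.** -/
theorem mkT_ZFam : MkT ZFam := by
  intro a ha ha1
  refine ⟨1, one_pos, fun e0 _ _ => ⟨1, one_pos, fun k8 _ _ => ⟨1, one_pos, fun k3 _ _ =>
    ⟨1, 1, 1, 1, one_pos, one_pos, one_pos, one_pos,
    fun c hc _ d hd _ Kt e cP L hKt he hcP _ => ?_⟩⟩⟩⟩
  have he0 : 0 < e := by linarith
  refine ⟨1 + (cP + 2) + 1920000 * (cP + 2) * Kt ^ 2 * e + 4 * (cP + 2) * e + 4 * (cP + 2),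
    ?_, 0, le_rfl, ?_⟩
  · have h1 : 0 ≤ 1920000 * (cP + 2) * Kt ^ 2 * e := by positivity
    have h2 : 0 ≤ 4 * (cP + 2) * e := by positivity
    linarith
  intro t ht ht1 n ez F1 F2 F3 h1 h3 h2 o ho K hKn x ι _ _ s r U g u v hs hr hcls Q1 Q2 Q3 q1 q2 q3
    hez Lb em hem hlb t0 _
  set CD : ℝ := 1 + (cP + 2) + 1920000 * (cP + 2) * Kt ^ 2 * e + 4 * (cP + 2) * e +
    4 * (cP + 2) with hCD
  set p : H401.Num := ⟨a, e0, k8, k3, c, d, Kt, e, cP, L, CD, t⟩ with hp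
  have hLm : 1 ≤ p.Lm := Num.Lm_ge (p := p) ht ht1 hd.le
  have hLd : p.Lm = t ^ (-d) := rfl
  have hlz : lsz p = t ^ (-(8 * (c + d))) := rfl
  have hcc := hcls.toCls
  have p1 : 0 ≤ 1920000 * (cP + 2) * Kt ^ 2 * e := by positivity
  have p2 : 0 ≤ 4 * (cP + 2) * e := by positivity
  have p3 : 0 ≤ cP + 2 := by positivity
  -- the loss
  have l1 : t ^ (-d) ≤ t ^ (-(8 * (c + d))) :=
    Real.rpow_le_rpow_of_exponent_ge ht ht1 (by linarith)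
  have l2 : (t ^ (-d)) ^ 2 * (t ^ (1 - c)) ^ 2 ≤ t ^ (-(8 * (c + d))) * t ^ (2 : ℝ) := by
    rw [← Real.rpow_natCast (t ^ (-d)), ← Real.rpow_mul ht.le, ← Real.rpow_natCast (t ^ (1 - c)),
      ← Real.rpow_mul ht.le, ← Real.rpow_add ht, ← Real.rpow_add ht]
    refine Real.rpow_le_rpow_of_exponent_ge ht ht1 ?_
    push_cast
    linarith
  have pl : 0 < t ^ (-(8 * (c + d))) := Real.rpow_pos_of_pos ht _
  have p8 : (0 : ℝ) < 8 ^ K := by positivity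
  have ps : 0 < s ^ (3 / 2 : ℝ) := Real.rpow_pos_of_pos hs _
  have pt : 0 < t ^ (2 : ℝ) := Real.rpow_pos_of_pos ht _
  refine ⟨⟨_, fam0_mono3 (fam0_cA hLm hcP h1 q1 hKn hcc t0) ?_ ?_ ?_⟩, ?_, ?_⟩
  · show cP + 2 ≤ CD
    linarith
  · show 1920000 * p.Lm ^ 2 * (cP + 2) * ((Kt * t ^ (1 - c)) ^ 2 * e) * (s * √s) * 8 ^ K ≤
      CD * (lsz p * (t ^ (2 : ℝ) * s ^ (3 / 2 : ℝ)) * 8 ^ K)
    rw [hLd, hlz, s32 hs]
    calc 1920000 * (t ^ (-d)) ^ 2 * (cP + 2) * ((Kt * t ^ (1 - c)) ^ 2 * e) * s ^ (3 / 2 : ℝ) * 8 ^ K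
        = 1920000 * (cP + 2) * Kt ^ 2 * e * (((t ^ (-d)) ^ 2 * (t ^ (1 - c)) ^ 2) *
          s ^ (3 / 2 : ℝ) * 8 ^ K) := by ring
      _ ≤ 1920000 * (cP + 2) * Kt ^ 2 * e * ((t ^ (-(8 * (c + d))) * t ^ (2 : ℝ)) *
          s ^ (3 / 2 : ℝ) * 8 ^ K) := by gcongr
      _ ≤ CD * ((t ^ (-(8 * (c + d))) * t ^ (2 : ℝ)) * s ^ (3 / 2 : ℝ) * 8 ^ K) :=
          mul_le_mul_of_nonneg_right (by linarith) (by positivity)
      _ = _ := by ring
  · show 4 * p.Lm * (cP + 2) * e * s * 8 ^ K ≤ CD * (lsz p * s * 8 ^ K)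
    rw [hLd, hlz]
    calc 4 * t ^ (-d) * (cP + 2) * e * s * 8 ^ K = 4 * (cP + 2) * e * (t ^ (-d) * s * 8 ^ K) := by
          ring
      _ ≤ 4 * (cP + 2) * e * (t ^ (-(8 * (c + d))) * s * 8 ^ K) := by gcongr
      _ ≤ _ := mul_le_mul_of_nonneg_right (by linarith) (by positivity)
  · have hb := (famK_cb (s := s) (r := r) (g := g) (v := v) hLm hcP h3 q3 hKn hcc t0).toR hem hlb
    refine ⟨_, hb.zero, hb.path, hb.pow.trans ?_⟩
    show 4 * p.Lm * (cP + 2) * e * s * 8 ^ K ≤ CD * (lsz p * s * 8 ^ K)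
    rw [hLd, hlz]
    calc 4 * t ^ (-d) * (cP + 2) * e * s * 8 ^ K = 4 * (cP + 2) * e * (t ^ (-d) * s * 8 ^ K) := by
          ring
      _ ≤ 4 * (cP + 2) * e * (t ^ (-(8 * (c + d))) * s * 8 ^ K) := by gcongr
      _ ≤ _ := mul_le_mul_of_nonneg_right (by linarith) (by positivity)
  · have hC := (famK_smul (√ez)⁻¹ (famK_mC (s := s) (r := r) (g := g) (u := u) hLm hez.le hcP q2 hKn
      hcc t0)).toR hem hlb
    refine ⟨_, hC.zero, hC.path, hC.pow.trans ?_⟩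
    show (√ez)⁻¹ ^ 2 * (4 * p.Lm * (cP + 2) * ez * s * 8 ^ K) ≤ CD * (lsz p * s * 8 ^ K)
    have e1 : (√ez)⁻¹ ^ 2 * (4 * p.Lm * (cP + 2) * ez * s * 8 ^ K) =
        4 * (cP + 2) * (t ^ (-d) * s * 8 ^ K) := by
      rw [inv_pow, Real.sq_sqrt hez.le, hLd]
      field_simp
    rw [e1, hlz]
    calc 4 * (cP + 2) * (t ^ (-d) * s * 8 ^ K)
        ≤ 4 * (cP + 2) * (t ^ (-(8 * (c + d))) * s * 8 ^ K) := by gcongr
      _ ≤ _ := mul_le_mul_of_nonneg_right (by linarith) (by positivity)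

end

end Vale.Agent.P141.H64
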