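import Vale.Agent.P141.H64.HighW
import Vale.Agent.P141.H401.CutData
import Vale.Agent.P141.H508.OwnC
import Vale.Agent.P141.H576.GapN

/-!
# P141, line (A), HP3: the family `hb3` of `H401.CutData` in the letters of `H205.FamK`

`famK_low` : the low part of the first cut; `famK_highW'` : the high part of the weighted cut of a
family with smaller weighted own energies at the affected squares than those of a `GapFam`;
`famK_mb`, `famK_b1`, `famK_hb3` : the families of class data, with numbers.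
-/

namespace Vale.Agent.P141.H64

open Finset Matrix Vale.Agent.P141.PL Vale.Agent.P141.H103
open Vale.Agent.P075 (Ix val)
open Vale.Agent.P141.PL.H315 (Tri A2)
open Vale.Agent.P141.H736 (Path)
open Vale.Agent.P141.H958 (Aff mem_Aff sum_Aff PackQ)
open Vale.Agent.P141.H205 (GQ GQ_psd CapS ownK pwrK FamK lowF)
open Vale.Agent.P141.H588G (S2 cnt)
open Vale.Agent.P141.H576 (GapFam QD)
open Vale.Agent.P141.H48 (US ES BSl sst Qth A4)
open Vale.Agent.P141.H305 (ClsM kapM Cls)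
open Vale.Agent.P141.H677 (KT GT fb fC kF)
open Vale.Agent.P141.H80
open Vale.Agent.P141.H401

noncomputable section

open scoped Classical

/-! ### The first cut -/

section low

variable {κ : Type*} [Fintype κ] {N : ℕ} {R S : ℤ} {Q : ℕ → ℤ → ℤ → Prop} {c : ℝ}
  {F : ℕ → ℤ → ℤ → κ → ℝ}

theorem ownK_lowF : ownK N R S Q (lowF Q c F) ≤ ownK N R S Q F := by
  unfold H205.ownK
  refine sum_le_sum fun i hi => mul_le_mul_of_nonneg_left ?_ (by positivity)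
  obtain ⟨_, _, _, h4⟩ := mem_Aff.1 hi
  exact H205.QW_low_le h4 fun x => transpose_one

theorem pwrK_lowF : pwrK N R S Q (lowF Q c F) ≤ pwrK N R S Q F := by
  rw [pwrK_eq, pwrK_eq]
  refine sum_le_sum fun i hi => mul_le_mul_of_nonneg_left ?_ (by positivity)
  obtain ⟨_, _, _, h4⟩ := mem_Aff.1 hi
  have h1 := H205.en_split (F := F) (c := c) h4
  have h2 := (GQ_psd i.1 (fun x y l => F (i.1 + 1) x y l - lowF Q c F (i.1 + 1) x y l) i.2.1
    i.2.2).trace_nonneg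
  linarith

/-- **The low part of the first cut.** -/
theorem famK_low {X : Finset ℤ} {q : ℤ → ℕ → ℤ → ℤ → Prop} {b : ℤ → ℕ → ℤ → ℤ → κ → ℝ}
    {cP G D : ℝ} (h : FamK N R S X q b cP G D) :
    FamK N R S X q (fun x0 => lowF (q x0) c (b x0)) cP G D where
  path := fun _ _ l => H205.lowF_path N R S l
  zero := fun _ _ => H205.lowF_zero
  pack := h.pack
  own := (sum_le_sum fun _ _ => ownK_lowF).trans h.own
  pow := (sum_le_sum fun _ _ => pwrK_lowF).trans h.pow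

end low

section gap

variable {κ : Type*} [Fintype κ] [DecidableEq κ] {l : ℝ} {N : ℕ}
  {G K : ℤ → ℕ → ℤ → Matrix κ κ ℝ} {R S T t₀ : ℤ}
  {A : ℤ → ℕ → ℤ → ℤ → ℝ} {b b1 : ℤ → ℕ → ℤ → ℤ → κ → ℝ} {qA qB : ℕ → ℤ → ℤ → ℤ → Prop}
  {gA gB cP : ℝ}

/-- **The high family of the weighted cut** of `b1`, the numbers are those of `b`. -/
theorem famK_highW' (f : GapFam l N G K R S T t₀ A b qA qB gA gB cP) {c q : ℝ} (hc : 0 < c)
    (hq : 0 ≤ q)
    (hle : ∀ x₀ ∈ iv N t₀, ∀ k < N, ∀ n ∈ iv (N - k) T, ∀ m ∈ iv (N - k) S,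
      qB k (ix k x₀) n m → S2 (QK (b1 x₀ (k + 1)) K k k n m) ≤ S2 (QK (b x₀ (k + 1)) K k k n m))
    (hcap : ∀ x₀ ∈ iv N t₀, ∀ k < N, ∀ n ∈ iv (N - k) T, ∀ m ∈ iv (N - k) S,
      qB k (ix k x₀) n m → CapS q k k (b1 x₀ (k + 1)) n m) {cP' G' D : ℝ}
    (hb : FamK N T S (iv N t₀) (fun x₀ k n m => qB k (ix k x₀) n m) b1 cP' G' D) :
    FamK N T S (iv N t₀) (fun x₀ k n m => qB k (ix k x₀) n m)
      (fun x₀ => highW (fun k n m => qB k (ix k x₀) n m) K c (b1 x₀)) cP'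
      ((q / c) ^ 2 * (gB * cP * 8 ^ N)) D where
  path := fun x₀ hx l => highW_path (hb.path x₀ hx l)
  zero := fun x₀ hx => highW_zero (hb.zero x₀ hx)
  pack := hb.pack
  own := by
    refine (sum_le_sum fun x₀ hx => ownK_highW (Q := fun k n m => qB k (ix k x₀) n m) hq hc
      (fun x k m => (f.tr x).pdK k m) (hcap x₀ hx)).trans ?_
    rw [← mul_sum]
    refine mul_le_mul_of_nonneg_left (le_trans ?_ (own_gap f)) (sq_nonneg _)
    refine sum_le_sum fun x₀ hx => sum_le_sum fun i hi => ?_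
    obtain ⟨h1, h2, h3, h4⟩ := mem_Aff.1 hi
    exact mul_le_mul_of_nonneg_left (hle x₀ hx i.1 h1 _ h2 _ h3 h4) (by positivity)
  pow := (sum_le_sum fun x₀ _ => pwrK_highW).trans hb.pow

end gap

/-! ### Class data -/

section cls

variable {ι : Type} [Fintype ι] [DecidableEq ι]

omit [DecidableEq ι] in
/-- **The killed family `mb`**, crude own number (the energies `e` instead of `t²`). -/
theorem famK_mb {p : H401.Num} {n K : ℕ} {s r P : ℝ} {U : Tri} {g : ℤ → ℤ → ℝ} {u v : ℤ → ℤ → ι → ℝ}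
    {F3 : ℕ → Pt → ℝ} {Q3 : ℕ → Pt → Prop} {x : Pt} (hΛ : 1 ≤ p.Lm) (he : 0 ≤ p.e)
    (hcP : 0 ≤ p.cP) (h : BSl n p.e p.cP F3 Q3) (hK : K ≤ n) (hc : Cls K x s r P U g u v)
    (t₀ : ℤ) :
    FamK K (ix K x.1) (ix K x.2.1) (iv K t₀) (fun x0 k n m => qB p U K Q3 k (ix k x0) n m)
      (mb p U K u F3) (p.cP + 2)
      (8 * p.Lm ^ 2 * (p.cP + 2) * p.e ^ 2 * (A2 K U.1 x.1 x.2.1 * √(A4 K U.1 x.1 x.2.1)) * 8 ^ K)
      (4 * p.Lm * (p.cP + 2) * p.e * A2 K U.1 x.1 x.2.1 * 8 ^ K) :=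
  H508.famK_C (v := u) (a := U.1) (F := F3) hΛ he hcP h hK (fun w hw z hz => by
    rw [← H769.iv_pt] at hw hz
    exact ⟨(hc.U_u w hw z hz).1, hc.u_le w hw z hz⟩) t₀

/-- the ratio of the thresholds -/
theorem th_be {p : H401.Num} {s r : ℝ} (ht : 0 < p.t) (hs : 0 < s) (hr : 1 ≤ r) :
    (p.th s r ^ 2 / (p.be s r ^ 2 / √(p.lam s r))) ^ 2 * (p.lam s r)⁻¹ =
      p.t ^ (-(4 * p.k3 + 4 * p.k8)) * r ^ (4 * p.k3 + 4 * p.k8) := by
  have hr0 : 0 < r := by linarith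
  have hl := Num.lam_pos (p := p) ht hs hr
  have hb := Num.be_pos (p := p) ht hs hr
  have hS : 0 < √s := Real.sqrt_pos.2 hs
  have e1 : (p.th s r ^ 2 / (p.be s r ^ 2 / √(p.lam s r))) ^ 2 * (p.lam s r)⁻¹ =
      (p.th s r ^ 2 / p.be s r ^ 2) ^ 2 := by
    have h2 := Real.sq_sqrt hl.le
    have h3 : √(p.lam s r) ≠ 0 := (Real.sqrt_pos.2 hl).ne'
    rw [div_div_eq_mul_div, div_pow, mul_pow, h2, div_pow, div_mul_eq_mul_div, mul_assoc,
      mul_inv_cancel₀ hl.ne', mul_one]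
  rw [e1, Num.th_sq ht hs hr, Num.be_sq ht hs hr]
  have e2 : p.t ^ (2 - 2 * p.k3) * √s * r ^ (2 * p.k3) /
      (p.t ^ (2 + 2 * p.k8) * √s * r ^ (-(2 * p.k8))) =
      p.t ^ (-(2 * p.k3 + 2 * p.k8)) * r ^ (2 * p.k3 + 2 * p.k8) := by
    have h1 : p.t ^ (2 - 2 * p.k3) =
        p.t ^ (-(2 * p.k3 + 2 * p.k8)) * p.t ^ (2 + 2 * p.k8) := by
      rw [← Real.rpow_add ht]
      congr 1
      ring
    have h2 : r ^ (2 * p.k3) = r ^ (2 * p.k3 + 2 * p.k8) * r ^ (-(2 * p.k8)) := by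
      rw [← Real.rpow_add hr0]
      congr 1
      ring
    have h3 : 0 < p.t ^ (2 + 2 * p.k8) := Real.rpow_pos_of_pos ht _
    have h4 : 0 < r ^ (-(2 * p.k8)) := Real.rpow_pos_of_pos hr0 _
    rw [h1, h2, div_eq_iff (by positivity)]
    ring
  rw [e2, mul_pow, ← Real.rpow_natCast (p.t ^ (-(2 * p.k3 + 2 * p.k8))), ← Real.rpow_mul ht.le,
    ← Real.rpow_natCast (r ^ (2 * p.k3 + 2 * p.k8)), ← Real.rpow_mul hr0.le]
  congr 2
  · push_cast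
    ring
  · push_cast
    ring

/-- **The family `hb3`**: own number `CB t^(2+pB) s^(3/2) r^(-pB)`,
`pB = e₀ / 4 - 4 k3 - 4 k8`. -/
theorem famK_hb3 {a e₀ c d Kt e cP L : ℝ} (ha : a ≤ 1) (he0 : 0 < e₀) (he0' : e₀ ≤ a / 10)
    (hc : c ≤ e₀ / 100) (hd0 : 0 < d) (hd : d ≤ e₀ / 100) (hKt : 0 < Kt) (he : 1 ≤ e)
    (hcP : 0 ≤ cP) (hL : 1 ≤ L) :
    ∃ CB : ℝ, 0 < CB ∧ ∀ k8 k3 CD t : ℝ, 0 < t → t ≤ 1 → ∀ (n : ℕ) (F1 F3 : ℕ → Pt → ℝ)
      (Q1 Q3 : ℕ → Pt → Prop), US n (Kt * t ^ (1 - c)) e cP F1 → BSl n e cP F1 Q1 →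
      US n (Kt * t ^ (1 - c)) e cP F3 → BSl n e cP F3 Q3 → ∀ K ≤ n, ∀ (x : Pt) (ι : Type)
      [Fintype ι] [DecidableEq ι] (s r P : ℝ) (U : Tri) (g : ℤ → ℤ → ℝ) (u v : ℤ → ℤ → ι → ℝ),
      0 < s → 1 ≤ r → ClsM K x s r P (kapM L t a s r) U g u v → ∀ t₀ : ℤ,
      FamK K (cx K x).1 (cx K x).2.1 (iv K t₀)
        (fun x0 k n m => qB ⟨a, e₀, k8, k3, c, d, Kt, e, cP, L, CD, t⟩ U K Q3 k (ix k x0) n m)
        (hb3 ⟨a, e₀, k8, k3, c, d, Kt, e, cP, L, CD, t⟩ s r U K u F3 Q3) (cP + 2)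
        (CB * (t ^ (2 + (e₀ / 4 - 4 * k3 - 4 * k8)) * s ^ (3 / 2 : ℝ) *
          r ^ (-(e₀ / 4 - 4 * k3 - 4 * k8)) * 8 ^ K))
        (4 * t ^ (-d) * (cP + 2) * e * s * 8 ^ K) := by
  obtain ⟨CA, CB, hCA, hCB, H⟩ := H576.gapN ha he0 he0' hc hd0 hd hKt he hcP hL
  refine ⟨CB * (cP + 2), by positivity, ?_⟩
  intro k8 k3 CD t ht ht1 n F1 F3 Q1 Q3 hF1 hB1 hF3 hB3 K hK x ι _ _ s r P U g u v hs hr C t₀
  have f := H t ht ht1 n F1 F3 Q1 Q3 hF1 hB1 hF3 hB3 K hK x ι s r P U g u v hs hr C t₀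
  set p : H401.Num := ⟨a, e₀, k8, k3, c, d, Kt, e, cP, L, CD, t⟩ with hp
  have hr0 : 0 < r := by linarith
  have hLm : 1 ≤ p.Lm := Num.Lm_ge (p := p) ht ht1 hd0.le
  have hl : 0 < p.lam s r := Num.lam_pos (p := p) ht hs hr
  have hbe : 0 < p.be s r := Num.be_pos (p := p) ht hs hr
  have hmb := famK_mb (p := p) (u := u) hLm (by linarith : (0 : ℝ) ≤ e) hcP hB3 hK C.toCls t₀
  have hb1 := famK_low (c := p.th s r ^ 2) hmb
  have h := famK_highW' (b1 := b1 p s r U K u F3 Q3) (c := p.be s r ^ 2 / √(p.lam s r))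
    (q := p.th s r ^ 2) f (div_pos (by positivity) (Real.sqrt_pos.2 hl)) (sq_nonneg _)
    (fun x₀ _ k _ n _ m _ hq => H205.QW_low_le hq fun x => ?_)
    (fun x₀ _ k _ n _ m _ hq => H205.capS_low (sq_nonneg _) hq) hb1
  · have e1 : (p.th s r ^ 2 / (p.be s r ^ 2 / √(p.lam s r))) ^ 2 * (((t ^ (2 - e₀) * √s *
        r ^ e₀)⁻¹ * (CB * (t ^ (2 + e₀ / 4) * s ^ (3 / 2 : ℝ) * r ^ (-(e₀ / 4))))) *
          (cP + 2) * 8 ^ K) =
        CB * (cP + 2) * (t ^ (2 + (e₀ / 4 - 4 * k3 - 4 * k8)) * s ^ (3 / 2 : ℝ) *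
          r ^ (-(e₀ / 4 - 4 * k3 - 4 * k8)) * 8 ^ K) := by
      have h1 := th_be (p := p) ht hs hr
      have h2 : (p.th s r ^ 2 / (p.be s r ^ 2 / √(p.lam s r))) ^ 2 *
          (t ^ (2 - e₀) * √s * r ^ e₀)⁻¹ = t ^ (-(4 * k3 + 4 * k8)) * r ^ (4 * k3 + 4 * k8) := h1
      have h3 : t ^ (2 + (e₀ / 4 - 4 * k3 - 4 * k8)) =
          t ^ (-(4 * k3 + 4 * k8)) * t ^ (2 + e₀ / 4) := by
        rw [← Real.rpow_add ht]
        congr 1
        ring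
      have h4 : r ^ (-(e₀ / 4 - 4 * k3 - 4 * k8)) =
          r ^ (4 * k3 + 4 * k8) * r ^ (-(e₀ / 4)) := by
        rw [← Real.rpow_add hr0]
        congr 1
        ring
      calc _ = ((p.th s r ^ 2 / (p.be s r ^ 2 / √(p.lam s r))) ^ 2 *
          (t ^ (2 - e₀) * √s * r ^ e₀)⁻¹) * (CB * (t ^ (2 + e₀ / 4) * s ^ (3 / 2 : ℝ) *
            r ^ (-(e₀ / 4)))) * (cP + 2) * 8 ^ K := by ring
        _ = _ := by
          rw [h2, h3, h4]
          ring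
    have hU : A2 K U.1 x.1 x.2.1 ≤ s := C.U_u2
    refine ⟨h.path, h.zero, h.pack, h.own.trans (le_of_eq e1), h.pow.trans ?_⟩
    have h5 : (0 : ℝ) ≤ 4 * t ^ (-d) * (cP + 2) * e := by
      have : 0 < t ^ (-d) := Real.rpow_pos_of_pos ht _
      positivity
    exact mul_le_mul_of_nonneg_right (mul_le_mul_of_nonneg_left hU h5) (by positivity)
  · have h1 : (KT (t ^ (2 - e₀) * √s * r ^ e₀) u x k m)ᵀ =
        KT (t ^ (2 - e₀) * √s * r ^ e₀) u x k m := by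
      have := ((f.tr x).pdK k m).isHermitian
      rwa [IsHermitian, conjTranspose_eq_transpose_of_trivial] at this
    rw [transpose_nonsing_inv, h1]

end cls

end

end Vale.Agent.P141.H64
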