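import Vale.Agent.P141.H64.HP3
import Vale.Agent.P141.H508.OwnAB
import Vale.Agent.P141.H593.HPnum

/-!
# P141, line (A), HP3: `HSt3`, the price of the high part of the second cut
-/

namespace Vale.Agent.P141.H64

open Finset Matrix Vale.Agent.P141.PL
open Vale.Agent.P141.H736 (Path)
open Vale.Agent.P141.H48 (US ES BSl)
open Vale.Agent.P141.H205 (FamK)
open Vale.Agent.P141.H971 (Fam0)
open Vale.Agent.P141.H401

noncomputable section

open scoped Classical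

/-- **The low part of a scalar family.** -/
theorem fam0_low {N : ℕ} {R S : ℤ} {X : Finset ℤ} {q : ℤ → ℕ → ℤ → ℤ → Prop}
    {A : ℤ → ℕ → ℤ → ℤ → ℝ} {cP G D c : ℝ} (h : Fam0 N R S X q A cP G D) :
    Fam0 N R S X q (fun x0 => H205.low1 (q x0) c (A x0)) cP G D where
  path := fun _ _ => H205.low1_path N R S
  zero := fun _ _ => H205.low1_zero
  pack := h.pack
  own := (sum_le_sum fun _ _ => H205.own4_low_le N R S).trans h.own
  pow := (sum_le_sum fun _ _ => H205.pwr_low_le N R S).trans h.pow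

/-- larger numbers -/
theorem fam0_mono {N : ℕ} {R S : ℤ} {X : Finset ℤ} {q : ℤ → ℕ → ℤ → ℤ → Prop}
    {A : ℤ → ℕ → ℤ → ℤ → ℝ} {cP G D G' D' : ℝ} (h : Fam0 N R S X q A cP G D) (hG : G ≤ G')
    (hD : D ≤ D') : Fam0 N R S X q A cP G' D' :=
  ⟨h.path, h.zero, h.pack, h.own.trans hG, h.pow.trans hD⟩

/-- larger numbers -/
theorem famK_mono {κ : Type*} [Fintype κ] {N : ℕ} {R S : ℤ} {X : Finset ℤ}
    {q : ℤ → ℕ → ℤ → ℤ → Prop} {A : ℤ → ℕ → ℤ → ℤ → κ → ℝ} {cP G D G' D' : ℝ}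
    (h : FamK N R S X q A cP G D) (hG : G ≤ G') (hD : D ≤ D') : FamK N R S X q A cP G' D' :=
  ⟨h.path, h.zero, h.pack, h.own.trans hG, h.pow.trans hD⟩

theorem s32 {s : ℝ} (hs : 0 < s) : s * √s = s ^ (3 / 2 : ℝ) := by
  rw [Real.sqrt_eq_rpow]
  nth_rewrite 1 [← Real.rpow_one s]
  rw [← Real.rpow_add hs]
  norm_num

/-- **Price of the high part of `b`, second cut.** -/
theorem hSt3 : HSt3 := by
  intro a ha ha1
  refine ⟨a / 10, by linarith, fun e0 he0 he0' => ⟨e0 / 100, by linarith, fun k8 hk8 hk8' =>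
    ⟨e0 / 100, by linarith, fun k3 hk3 hk3' => ⟨e0 / 100, e0 / 1000, e0 / 1000, e0 / 100,
      by linarith, by linarith, by linarith, by linarith, fun c hc hcc d hd hdd Kt e cP L hKt he
        hcP hL => ⟨1, le_rfl, ?_⟩⟩⟩⟩⟩
  obtain ⟨CB, hCB, HB⟩ := famK_hb3 (a := a) (e₀ := e0) (c := c) (d := d) (Kt := Kt) (e := e)
    (cP := cP) (L := L) ha1 he0 he0' (by linarith) hd (by linarith) hKt he hcP hL
  have he' : 0 < e := by linarith
  have hCA : 0 < 1920000 * (cP + 2) * Kt ^ 2 * e := by positivity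
  obtain ⟨C, hC, HC⟩ := H593.hp_price (pA := -(2 * c + 2 * d)) (pB := e0 / 4 - 4 * k3 - 4 * k8)
    (qA := 0) (qB := e0 / 4 - 4 * k3 - 4 * k8) (wA := d) (wC := d) (wG := 2 * d) (θ := e0 / 200)
    (gam := e0 / 100) (del := e0 / 100) (by linarith) le_rfl (by linarith) (by nlinarith)
    (by linarith) hCA hCB (cA := 4 * (cP + 2) * e) (by positivity) (cC := 4 * (cP + 2))
    (by positivity) (cG := 8 * (cP + 2)) (by positivity) (cP := cP + 2) (by linarith)
  refine ⟨C, hC, ?_⟩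
  intro t ht ht1 n ez F1 F2 F3 h1 h3 h2 o ho K hKn x ι _ _ s r U g u v hs hr hcls Q1 Q2 Q3 q1 q2 q3
  set p : H401.Num := ⟨a, e0, k8, k3, c, d, Kt, e, cP, L, 1, t⟩ with hp
  have hr0 : 0 < r := by linarith
  have hLm : 1 ≤ p.Lm := Num.Lm_ge (p := p) ht ht1 hd.le
  have hs32 := s32 hs
  have hLd : p.Lm = t ^ (-d) := rfl
  have hL2 : (t ^ (-d)) ^ 2 = t ^ (-(2 * d)) := by
    rw [← Real.rpow_natCast, ← Real.rpow_mul ht.le]
    congr 1
    push_cast
    ring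
  have hA2 : (t ^ (-d)) ^ 2 * (t ^ (1 - c)) ^ 2 = t ^ (2 + -(2 * c + 2 * d)) := by
    rw [hL2, ← Real.rpow_natCast (t ^ (1 - c)), ← Real.rpow_mul ht.le, ← Real.rpow_add ht]
    congr 1
    push_cast
    ring
  -- the bound for every larger energy
  have key : ∀ ez' : ℝ, ez < ez' →
      NS o (p.al U K) K x (fun x0 k m =>
        |H677.nf3 (cA p s r U K g F1 Q1 x0 k) (hb3 p s r U K u F3 Q3 x0 k)
          (mC p U K v F2 x0 k) k m|) ≤
      (C * (t ^ (1 + e0 / 100) * s ^ (5 / 4 : ℝ) * 8 ^ K) * r ^ (-(e0 / 100))) * √ez' := by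
    intro ez' hez'
    have hez : 0 < ez' := lt_of_le_of_lt h2.1 hez'
    obtain ⟨QC, HQC⟩ := H508.famK_Cls (Λ := p.Lm) hLm hcP (H593.ES_mono h2 hez'.le) hKn hcls.toCls
    have hN := H205.NS_nf3_le (o := o) (Al := p.al U K) (K := K) (x := x) ho
      (A := cA p s r U K g F1 Q1) (b := hb3 p s r U K u F3 Q3) (C := mC p U K v F2)
      (QA := fun x0 k n m => qA p U K Q1 k (ix k x0) n m)
      (QB := fun x0 k n m => qB p U K Q3 k (ix k x0) n m)
      (QC := fun x0 => H48.Qth p.Lm U.2.1 K QC x0) (cP := cP + 2)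
      (GA := 1920000 * (cP + 2) * Kt ^ 2 * e *
        (t ^ (2 + -(2 * c + 2 * d)) * s ^ (3 / 2 : ℝ) * r ^ (-(0 : ℝ)) * 8 ^ K))
      (GB := CB * (t ^ (2 + (e0 / 4 - 4 * k3 - 4 * k8)) * s ^ (3 / 2 : ℝ) *
          r ^ (-(e0 / 4 - 4 * k3 - 4 * k8)) * 8 ^ K))
      (GC := 8 * (cP + 2) * (ez' ^ 2 * t ^ (-(2 * d)) * s ^ (3 / 2 : ℝ) * 8 ^ K))
      (DA := 4 * (cP + 2) * e * (t ^ (-d) * s * 8 ^ K))
      (DB := 4 * t ^ (-d) * (cP + 2) * e * s * 8 ^ K)
      (DC := 4 * (cP + 2) * (ez' * t ^ (-d) * s * 8 ^ K))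
      (by linarith) (by positivity) (by positivity) (by positivity) (by positivity)
      (by positivity) (by positivity) (fun T _ => ?_) (fun T _ => ?_) (fun T _ => ?_)
    · refine hN.trans ((HC t ht ht1 s r ez' hs hr hez K _ (by positivity)).trans (le_of_eq ?_))
      ring
    · have hA := H508.fam0_Cls (Λ := p.Lm) (K := K) (F1 := F1) hLm hcP h1 q1 hKn hcls.toCls T
      refine fam0_mono (fam0_low (c := p.th s r ^ 2) hA) (le_of_eq ?_) (le_of_eq ?_)
      · rw [hLd, hs32, ← hA2, neg_zero, Real.rpow_zero]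
        ring
      · rw [hLd]
        ring
    · exact HB k8 k3 1 t ht ht1 n F1 F3 Q1 Q3 h1 q1 h3 q3 K hKn x ι s r _ U g u v hs hr hcls T
    · refine famK_mono (HQC T) (le_of_eq ?_) (le_of_eq ?_)
      · rw [hLd, hs32, hL2]
        ring
      · rw [hLd]
        ring
  have h := H593.lim_ez key
  refine h.trans (le_of_eq ?_)
  ring

end

end Vale.Agent.P141.H64
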