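import Vale.Agent.P141.H205.HPart
import Vale.Agent.P141.H576.GapI
import Vale.Agent.P141.H80.LightCut

/-!
# P141, line (A), HP3: the high part of the weighted static cut, summed over `x₀`

`sum_Aff_cap` : sums over the affected squares of numbers with a cap in every cell of `x₀`;
`own_gap` : the weighted own energies of the affected squares of a `GapFam`;
`famK_highW`, `famK_lowW` : the two families of the weighted cut `H80.highW`, `H80.lowW` in the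
letters of `H205.FamK`.
-/

namespace Vale.Agent.P141.H64

open Finset Matrix Vale.Agent.P141.PL Vale.Agent.P141.H103
open Vale.Agent.P075 (Ix val)
open Vale.Agent.P141.H736 (Path)
open Vale.Agent.P141.H958 (Aff mem_Aff sum_Aff PackQ)
open Vale.Agent.P141.H205 (GQ GQ_psd CapS ownK pwrK FamK)
open Vale.Agent.P141.H588G (S2 cnt)
open Vale.Agent.P141.H576 (GapFam)
open Vale.Agent.P141.H80

noncomputable section

open scoped Classical

/-! ### Traces -/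

section tr

variable {n : Type*} [Fintype n] [DecidableEq n]

/-- the traces of the two parts of a symmetric idempotent -/
theorem tr_two {P X : Matrix n n ℝ} (hi : P * P = P) :
    (P * X * P).trace + ((1 - P) * X * (1 - P)).trace = X.trace := by
  have h1 : (P * X * P).trace = (P * X).trace := by
    rw [trace_mul_comm, ← Matrix.mul_assoc, hi]
  have h2 : ((1 - P) * X * (1 - P)).trace = ((1 - P) * X).trace := by
    rw [trace_mul_comm, ← Matrix.mul_assoc, one_sub_idem hi]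
  rw [h1, h2, Matrix.sub_mul, Matrix.one_mul, trace_sub]
  ring

omit [DecidableEq n] in
theorem tr_cut_nonneg {P X : Matrix n n ℝ} (ht : Pᵀ = P) (hX : X.PosSemidef) :
    0 ≤ (P * X * P).trace := by
  have h1 := hX.conjTranspose_mul_mul_same P
  rw [conjTranspose_eq_transpose_of_trivial, ht] at h1
  exact h1.trace_nonneg

end tr

section energy

variable {κ : Type*} [Fintype κ]

/-- energy of a square -/
theorem tr_GQ (k : ℕ) (b : ℤ → ℤ → κ → ℝ) (n m : ℤ) :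
    ∑ x ∈ iv k n, ∑ y ∈ iv k m, b x y ⬝ᵥ b x y = 4 ^ k * (GQ k b n m).trace := by
  have hG : ∀ j : Ix k, GQ k b n m j j = ((2 : ℝ) ^ k * 2 ^ k)⁻¹ *
      ∑ x ∈ iv k n, b x (2 ^ k * m + val k j) ⬝ᵥ b x (2 ^ k * m + val k j) := by
    intro j
    unfold H205.GQ QW
    congr 1
    refine sum_congr rfl fun x _ => ?_
    rw [one_mulVec]
  unfold Matrix.trace
  simp only [Matrix.diag_apply, hG]
  rw [← mul_sum, ← mul_assoc, ← mul_pow, show (2 : ℝ) * 2 = 4 by norm_num,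
    mul_inv_cancel₀ (by positivity), one_mul, sum_comm, H588.sum_iv]

theorem pwrK_eq (N : ℕ) (R S : ℤ) (Q : ℕ → ℤ → ℤ → Prop) (F : ℕ → ℤ → ℤ → κ → ℝ) :
    pwrK N R S Q F = ∑ i ∈ Aff N R S Q, (4 : ℝ) ^ i.1 *
      (GQ i.1 (F (i.1 + 1)) i.2.1 i.2.2).trace := by
  unfold H205.pwrK
  exact sum_congr rfl fun i _ => tr_GQ ..

end energy

/-! ### The sum over `x₀` -/

section gap

variable {κ : Type*} [Fintype κ] [DecidableEq κ]

theorem sum_Aff_cnt (N : ℕ) (R S : ℤ) (Q : ℕ → ℤ → ℤ → Prop) :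
    ∑ i ∈ Aff N R S Q, (4 : ℝ) ^ i.1 = ∑ k ∈ range N, cnt N R S k (Q k) := by
  rw [sum_Aff]
  refine sum_congr rfl fun k _ => ?_
  unfold cnt
  rw [mul_sum]
  refine sum_congr rfl fun m _ => ?_
  rw [mul_sum]
  refine sum_congr rfl fun n _ => ?_
  split_ifs <;> simp

/-- sums over the affected squares of numbers with a cap in every cell of `x₀` -/
theorem sum_Aff_cap {N : ℕ} {R S t₀ : ℤ} {q : ℕ → ℤ → ℤ → ℤ → Prop} {s : ℤ → ℕ → ℤ → ℤ → ℝ}
    {g cP : ℝ} (hg : 0 ≤ g)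
    (cap : ∀ k < N, ∀ i ∈ iv (N - k) t₀, ∀ n ∈ iv (N - k) R, ∀ m ∈ iv (N - k) S,
      ∑ x ∈ iv k i, s x k n m ≤ g * 2 ^ k)
    (pack : ∀ x ∈ iv N t₀, ∑ k ∈ range N, cnt N R S k (q k (ix k x)) ≤ cP * 4 ^ N) :
    ∑ x ∈ iv N t₀, ∑ i ∈ Aff N R S (fun k n m => q k (ix k x) n m),
      (4 : ℝ) ^ i.1 * s x i.1 i.2.1 i.2.2 ≤ g * cP * 8 ^ N := by
  simp only [sum_Aff]
  rw [sum_comm]
  have h1 : ∀ k ∈ range N, ∑ x ∈ iv N t₀, ∑ m ∈ iv (N - k) S, ∑ n ∈ iv (N - k) R,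
      (if q k (ix k x) n m then (4 : ℝ) ^ k * s x k n m else 0) ≤
      ∑ x ∈ iv N t₀, g * cnt N R S k (q k (ix k x)) := by
    intro k hk
    have hk := mem_range.1 hk
    have e : iv N t₀ = iv (N - k + k) t₀ := by rw [Nat.sub_add_cancel hk.le]
    rw [e, ← H588G.sum_iv_iv, ← H588G.sum_iv_iv]
    refine sum_le_sum fun i hi => ?_
    have e1 : ∑ x ∈ iv k i, ∑ m ∈ iv (N - k) S, ∑ n ∈ iv (N - k) R,
        (if q k (ix k x) n m then (4 : ℝ) ^ k * s x k n m else 0) =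
        ∑ m ∈ iv (N - k) S, ∑ n ∈ iv (N - k) R,
          (if q k i n m then (4 : ℝ) ^ k * ∑ x ∈ iv k i, s x k n m else 0) := by
      rw [sum_comm]
      refine sum_congr rfl fun m _ => ?_
      rw [sum_comm]
      refine sum_congr rfl fun n _ => ?_
      rw [sum_congr rfl fun x hx => by rw [mem_iv.1 hx]]
      split_ifs
      · rw [mul_sum]
      · simp
    have e2 : ∑ x ∈ iv k i, g * cnt N R S k (q k (ix k x)) =
        (g * 2 ^ k) * cnt N R S k (q k i) := by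
      rw [sum_congr rfl fun x hx => by rw [mem_iv.1 hx], sum_const, nsmul_eq_mul, card_iv]
      push_cast
      ring
    rw [e1, e2]
    unfold cnt
    rw [mul_sum, mul_sum]
    refine sum_le_sum fun m hm => ?_
    rw [mul_sum, mul_sum]
    refine sum_le_sum fun n hn => ?_
    split_ifs
    · rw [mul_one, mul_comm]
      exact mul_le_mul_of_nonneg_right (cap k hk i hi n hn m hm) (by positivity)
    · simp
  refine (sum_le_sum h1).trans ?_
  rw [sum_comm]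
  have h2 : ∑ x ∈ iv N t₀, ∑ k ∈ range N, g * cnt N R S k (q k (ix k x)) ≤
      ∑ x ∈ iv N t₀, g * (cP * 4 ^ N) := by
    refine sum_le_sum fun x hx => ?_
    rw [← mul_sum]
    exact mul_le_mul_of_nonneg_left (pack x hx) hg
  refine h2.trans (le_of_eq ?_)
  rw [sum_const, nsmul_eq_mul, card_iv, show (8 : ℝ) = 2 * 4 by norm_num, mul_pow]
  push_cast
  ring

variable {l : ℝ} {N : ℕ} {G K : ℤ → ℕ → ℤ → Matrix κ κ ℝ} {R S T t₀ : ℤ}
  {A : ℤ → ℕ → ℤ → ℤ → ℝ} {b H : ℤ → ℕ → ℤ → ℤ → κ → ℝ} {qA qB : ℕ → ℤ → ℤ → ℤ → Prop}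
  {gA gB cP : ℝ}

/-- **the weighted own energies of the affected squares**, weight `K⁻¹` -/
theorem own_gap (f : GapFam l N G K R S T t₀ A b qA qB gA gB cP) :
    ∑ x₀ ∈ iv N t₀, ∑ i ∈ Aff N T S (fun k n m => qB k (ix k x₀) n m),
      (4 : ℝ) ^ i.1 * S2 (QK (b x₀ (i.1 + 1)) K i.1 i.1 i.2.1 i.2.2) ≤ gB * cP * 8 ^ N :=
  sum_Aff_cap (s := fun x₀ k n m => S2 (QK (b x₀ (k + 1)) K k k n m)) f.gB0.le f.capB f.packB


/-- the own energies of the high part of the weighted cut, one point `x₀` -/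
theorem ownK_highW {N : ℕ} {R S : ℤ} {Q : ℕ → ℤ → ℤ → Prop} {K : ℤ → ℕ → ℤ → Matrix κ κ ℝ}
    {F : ℕ → ℤ → ℤ → κ → ℝ} {q c : ℝ} (hq : 0 ≤ q) (hc : 0 < c)
    (hK : ∀ x k m, (K x k m).PosDef)
    (hcap : ∀ k < N, ∀ n ∈ iv (N - k) R, ∀ m ∈ iv (N - k) S, Q k n m →
      CapS q k k (F (k + 1)) n m) :
    ownK N R S Q (highW Q K c F) ≤ (q / c) ^ 2 * ∑ i ∈ Aff N R S Q, (4 : ℝ) ^ i.1 *
      S2 (QK (F (i.1 + 1)) K i.1 i.1 i.2.1 i.2.2) := by
  unfold H205.ownK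
  rw [mul_sum]
  refine sum_le_sum fun i hi => ?_
  obtain ⟨h1, h2, h3, h4⟩ := mem_Aff.1 hi
  rw [mul_left_comm]
  refine mul_le_mul_of_nonneg_left ?_ (by positivity)
  have h := own_high hc hK h4 hq (hcap i.1 h1 _ h2 _ h3 h4)
  have hc2 : 0 < c ^ 2 := by positivity
  rw [div_pow, div_mul_eq_mul_div, le_div_iff₀ hc2, mul_comm]
  exact h

/-- the energies of the high part -/
theorem pwrK_highW {N : ℕ} {R S : ℤ} {Q : ℕ → ℤ → ℤ → Prop} {K : ℤ → ℕ → ℤ → Matrix κ κ ℝ}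
    {F : ℕ → ℤ → ℤ → κ → ℝ} {c : ℝ} :
    pwrK N R S Q (highW Q K c F) ≤ pwrK N R S Q F := by
  rw [pwrK_eq, pwrK_eq]
  refine sum_le_sum fun i hi => mul_le_mul_of_nonneg_left ?_ (by positivity)
  obtain ⟨h1, h2, h3, h4⟩ := mem_Aff.1 hi
  have e : GQ i.1 (highW Q K c F (i.1 + 1)) i.2.1 i.2.2 =
      (1 - prW K c F i.1 i.2.1 i.2.2) * GQ i.1 (F (i.1 + 1)) i.2.1 i.2.2 *
        (1 - prW K c F i.1 i.2.1 i.2.2) :=
    QW_highG (F := F) (Pr := prW K c F) h4 (prW_tr K c F _ _ _) (Subset.refl _) _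
  have h5 := tr_two (X := GQ i.1 (F (i.1 + 1)) i.2.1 i.2.2) (prW_idem K c F i.1 i.2.1 i.2.2)
  have h6 := tr_cut_nonneg (prW_tr K c F i.1 i.2.1 i.2.2) (GQ_psd i.1 (F (i.1 + 1)) i.2.1 i.2.2)
  rw [e]
  linarith

/-- the energies of the low part -/
theorem pwrK_lowW {N : ℕ} {R S : ℤ} {Q : ℕ → ℤ → ℤ → Prop} {K : ℤ → ℕ → ℤ → Matrix κ κ ℝ}
    {F : ℕ → ℤ → ℤ → κ → ℝ} {c : ℝ} :
    pwrK N R S Q (lowW Q K c F) ≤ pwrK N R S Q F := by
  rw [pwrK_eq, pwrK_eq]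
  refine sum_le_sum fun i hi => mul_le_mul_of_nonneg_left ?_ (by positivity)
  obtain ⟨h1, h2, h3, h4⟩ := mem_Aff.1 hi
  have e : GQ i.1 (lowW Q K c F (i.1 + 1)) i.2.1 i.2.2 =
      prW K c F i.1 i.2.1 i.2.2 * GQ i.1 (F (i.1 + 1)) i.2.1 i.2.2 *
        prW K c F i.1 i.2.1 i.2.2 :=
    QW_lowG (F := F) (Pr := prW K c F) h4 (prW_tr K c F _ _ _) (Subset.refl _) _
  have h5 := tr_two (X := GQ i.1 (F (i.1 + 1)) i.2.1 i.2.2) (prW_idem K c F i.1 i.2.1 i.2.2)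
  have h7 : (1 - prW K c F i.1 i.2.1 i.2.2)ᵀ = 1 - prW K c F i.1 i.2.1 i.2.2 := by
    rw [transpose_sub, transpose_one, prW_tr]
  have h6 := tr_cut_nonneg h7 (GQ_psd i.1 (F (i.1 + 1)) i.2.1 i.2.2)
  rw [e]
  linarith

/-- **The high family of the weighted cut.** -/
theorem famK_highW (f : GapFam l N G K R S T t₀ A b qA qB gA gB cP) {c q : ℝ} (hc : 0 < c)
    (hq : 0 ≤ q)
    (hcap : ∀ x₀ ∈ iv N t₀, ∀ k < N, ∀ n ∈ iv (N - k) T, ∀ m ∈ iv (N - k) S,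
      qB k (ix k x₀) n m → CapS q k k (b x₀ (k + 1)) n m) {cP' G' D : ℝ}
    (hb : FamK N T S (iv N t₀) (fun x₀ k n m => qB k (ix k x₀) n m) b cP' G' D) :
    FamK N T S (iv N t₀) (fun x₀ k n m => qB k (ix k x₀) n m)
      (fun x₀ => highW (fun k n m => qB k (ix k x₀) n m) K c (b x₀)) cP'
      ((q / c) ^ 2 * (gB * cP * 8 ^ N)) D where
  path := fun x₀ hx l => highW_path (hb.path x₀ hx l)
  zero := fun x₀ hx => highW_zero (hb.zero x₀ hx)
  pack := hb.pack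
  own := by
    refine (sum_le_sum fun x₀ hx => ownK_highW (Q := fun k n m => qB k (ix k x₀) n m) hq hc
      (fun x k m => (f.tr x).pdK k m) (hcap x₀ hx)).trans ?_
    rw [← mul_sum]
    exact mul_le_mul_of_nonneg_left (own_gap f) (sq_nonneg _)
  pow := (sum_le_sum fun x₀ _ => pwrK_highW).trans hb.pow

end gap

end

end Vale.Agent.P141.H64
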