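import Vale.Agent.P141.H64.VecE
import Vale.Agent.P141.H876.ShiftY

/-!
# P141, line (A): the moving slot on a shifted grid, any signs with small energy: assembly

From the bound for every fixed vector (`hfix`) and the sign-blind bound `S1a` to the bound for all
vectors `v y`.
-/

namespace Vale.Agent.P141.H64

open Finset Matrix
open Vale.Agent.P141.PL (iv ix hs mem_iv ix_ix card_iv)
open Vale.Agent.P141.H43 (nsq nsq_nonneg)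
open Vale.Agent.P141.H841 (Lm Rm Rs Nn nsq_eq nsq_smul nsq_add_le nsq_sub_le ep ep_nonneg)
open Vale.Agent.P141.H876 (En wt_cell S1a S0a S2a)

noncomputable section

open scoped Classical

variable {ι J : Type*} [Fintype ι] [Fintype J]

variable {Mx : ℕ → ℤ → Matrix ι ι ℝ} {o x1 T M3 : ℤ} {n : ℕ} {s : ℕ → ℤ → ℤ → ℝ}

/-- the form -/
def Qf (c : J → ℝ) (u : J → ι → ℝ) (f : ι → ℝ) : ℝ := ∑ j, c j * (u j ⬝ᵥ f) ^ 2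

theorem Qf_nonneg {c : J → ℝ} (hc : ∀ j, 0 ≤ c j) (u : J → ι → ℝ) (f : ι → ℝ) : 0 ≤ Qf c u f :=
  sum_nonneg fun j _ => mul_nonneg (hc j) (sq_nonneg _)

/-- the form at the fixed vectors -/
theorem fix_sum {c : J → ℝ} (hc : ∀ j, 0 ≤ c j) (u : J → ι → ℝ) {Θ' a1 a2 : ℝ}
    (hu : ∑ j, c j * nsq (u j) ≤ Θ') (h1 : 0 ≤ a1) (h2 : 0 ≤ a2) {F : J → ℝ}
    (hF : ∀ j, F j ≤ a1 * nsq (u j) + a2 * Qf c u (u j)) :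
    ∑ j, c j * F j ≤ a1 * Θ' + a2 * Θ' ^ 2 := by
  have hu0 : 0 ≤ ∑ j, c j * nsq (u j) := sum_nonneg fun j _ => mul_nonneg (hc j) (nsq_nonneg _)
  calc ∑ j, c j * F j ≤ ∑ j, c j * (a1 * nsq (u j) + a2 * Qf c u (u j)) :=
        sum_le_sum fun j _ => mul_le_mul_of_nonneg_left (hF j) (hc j)
    _ = a1 * ∑ j, c j * nsq (u j) + a2 * ∑ i, c i * ∑ j, c j * (u j ⬝ᵥ u i) ^ 2 := by
        rw [mul_sum, mul_sum, ← sum_add_distrib]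
        refine sum_congr rfl fun j _ => ?_
        unfold Qf
        ring
    _ ≤ a1 * Θ' + a2 * Θ' ^ 2 := by
        refine add_le_add (mul_le_mul_of_nonneg_left hu h1) (mul_le_mul_of_nonneg_left ?_ h2)
        exact (sum_Q hc u).trans (pow_le_pow_left₀ hu0 hu 2)

/-- **(S1), any signs, from the fixed vectors.** -/
theorem S1e (hs1 : ∀ k a b, |s k a b| ≤ 1) (ho : o = 1 ∨ o = -1) {c : J → ℝ} (hc : ∀ j, 0 ≤ c j)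
    {u : J → ι → ℝ} {Θ' : ℝ} (hu : ∑ j, c j * nsq (u j) ≤ Θ')
    (hX : ∀ a, ∑ i ∈ range n, En Mx n T x1 M3 (i + 1) a ≤ 2 ^ n * Qf c u a)
    {W : ℕ → ℤ → ℤ → ℝ} {e : ℝ} (he : 0 ≤ e) (hW0 : ∀ k x0 y, 0 ≤ W k x0 y)
    (hW : ∀ k ≤ n, ∀ j y, ∑ x0 ∈ iv k j, W k x0 y ≤ e * 2 ^ k)
    {θ : ℕ → ℤ → ℝ} (hθ0 : ∀ k m, 0 ≤ θ k m)
    (hθ : ∀ k m a, nsq (Mx k m *ᵥ a) ≤ θ k m * nsq a) {Θ : ℝ}
    (hΘ : ∑ i ∈ range n, ep θ n T x1 M3 i ≤ Θ * 2 ^ n) {al : ℕ → ℤ → Prop} {v : ℤ → ι → ℝ} {V : ℝ}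
    (hV0 : 0 ≤ V) (hV : ∀ k ≤ n, ∀ y, al k y → ∑ y' ∈ iv k (ix k y), nsq (v y') ≤ V * 2 ^ k)
    (hal : ∀ y ∈ iv n M3, ∀ k ≤ n, ¬ al k y → ∀ x0, W k x0 y = 0) (L : ℕ) (sh : ℤ)
    {a1 a2 : ℝ} (h1 : 0 ≤ a1) (h2 : 0 ≤ a2)
    (hfix : ∀ f : ι → ℝ, ∑ y ∈ iv n M3, ∑ k ∈ range (n + 1), ∑ x0 ∈ iv n T,
      W k x0 y * nsq (v y) *
        nsq ((Rs Mx o x1 s n sh k x0 (ix k (y - sh)) - Rm Mx o x1 s n k x0 y) *ᵥ f) ≤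
      a1 * nsq f + a2 * Qf c u f)
    {δ : ℝ} (hδ : 0 < δ) :
    ∑ y ∈ iv n M3, ∑ k ∈ range (n + 1), ∑ x0 ∈ iv n T, W k x0 y *
        nsq ((Rs Mx o x1 s n sh k x0 (ix k (y - sh)) - Rm Mx o x1 s n k x0 y) *ᵥ v y) ≤
      2 * (e * ((48 + 16 * (L : ℝ) ^ 3) * (2 ^ n * (δ / 4 * ∑ y ∈ iv n M3, nsq (v y))) +
        128 * (((L : ℝ) + 2) ^ 2 + 2) / 2 ^ L * (V * Θ * 4 ^ n))) +
      (a1 * Θ' + a2 * Θ' ^ 2) / (2 * δ) := by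
  refine split_sum3 (iv n M3) (range (n + 1)) (iv n T) hW0 (fun k x0 y =>
    Rs Mx o x1 s n sh k x0 (ix k (y - sh)) - Rm Mx o x1 s n k x0 y) v hc u hδ
    (fun g g1 g2 => ?_) ?_
  · refine (S1a (s := s) (v := g) hs1 ho hX he hW0 hW hθ0 hθ hΘ hV0 (fun k hk y hy =>
      (sum_le_sum fun y' _ => g1 y').trans (hV k hk y hy)) hal L sh).trans ?_
    refine mul_le_mul_of_nonneg_left (add_le_add (mul_le_mul_of_nonneg_left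
      (mul_le_mul_of_nonneg_left ?_ (by positivity)) (by positivity)) le_rfl) he
    rw [mul_sum]
    refine sum_le_sum fun y _ => (g2 y).trans (le_of_eq ?_)
    ring
  · exact fix_sum hc u hu h1 h2 fun j => hfix (u j)

/-- **(S1), any signs with small energy `E`, frozen letter.** -/
theorem S1F (hs1 : ∀ k a b, |s k a b| ≤ 1) (ho : o = 1 ∨ o = -1) {c : J → ℝ} (hc : ∀ j, 0 ≤ c j)
    {u : J → ι → ℝ} {Θ' : ℝ} (hu : ∑ j, c j * nsq (u j) ≤ Θ')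
    (hX : ∀ a, ∑ i ∈ range n, En Mx n T x1 M3 (i + 1) a ≤ 2 ^ n * Qf c u a)
    {W : ℕ → ℤ → ℤ → ℝ} {e : ℝ} (he : 0 ≤ e) (hW0 : ∀ k x0 y, 0 ≤ W k x0 y)
    (hW : ∀ k ≤ n, ∀ j y, ∑ x0 ∈ iv k j, W k x0 y ≤ e * 2 ^ k)
    {θ : ℕ → ℤ → ℝ} (hθ0 : ∀ k m, 0 ≤ θ k m)
    (hθ : ∀ k m a, nsq (Mx k m *ᵥ a) ≤ θ k m * nsq a) {Θ : ℝ} (hΘ0 : 0 ≤ Θ)
    (hΘ : ∑ i ∈ range n, ep θ n T x1 M3 i ≤ Θ * 2 ^ n) {al : ℕ → ℤ → Prop} {v : ℤ → ι → ℝ} {V : ℝ}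
    (hV0 : 0 ≤ V) (hV : ∀ k ≤ n, ∀ y, al k y → ∑ y' ∈ iv k (ix k y), nsq (v y') ≤ V * 2 ^ k)
    (hal : ∀ y ∈ iv n M3, ∀ k ≤ n, ¬ al k y → ∀ x0, W k x0 y = 0) (L : ℕ) (sh : ℤ)
    {E : ℝ} (hE : 0 ≤ E)
    (hfix : ∀ f : ι → ℝ, ∑ y ∈ iv n M3, ∑ k ∈ range (n + 1), ∑ x0 ∈ iv n T,
      W k x0 y * nsq (v y) *
        nsq ((Rs Mx o x1 s n sh k x0 (ix k (y - sh)) - Rm Mx o x1 s n k x0 y) *ᵥ f) ≤
      e * V * 4 ^ n * ((3456 + 24 * (L : ℝ) ^ 3) * (E * nsq f) +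
        8 * ((((L : ℝ) + 2) ^ 2 + 2) / 2 ^ L) * Qf c u f))
    {δ : ℝ} (hδ : 0 < δ) :
    ∑ y ∈ iv n M3, ∑ k ∈ range (n + 1), ∑ x0 ∈ iv n T, W k x0 y *
        nsq ((Rs Mx o x1 s n sh k x0 (ix k (y - sh)) - Rm Mx o x1 s n k x0 y) *ᵥ v y) ≤
      1728 * e * (1 + (L : ℝ)) ^ 3 * (δ * 2 ^ n * ∑ y ∈ iv n M3, nsq (v y) +
        V * 4 ^ n * (Θ' * E / δ + (Θ + Θ' ^ 2 / δ) / 2 ^ L)) := by
  have hΘ' : 0 ≤ Θ' := (sum_nonneg fun j _ => mul_nonneg (hc j) (nsq_nonneg _)).trans hu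
  have hS : 0 ≤ ∑ y ∈ iv n M3, nsq (v y) := sum_nonneg fun y _ => nsq_nonneg _
  have h := S1e (s := s) hs1 ho hc hu hX he hW0 hW hθ0 hθ hΘ hV0 hV hal L sh
    (a1 := e * V * 4 ^ n * ((3456 + 24 * (L : ℝ) ^ 3) * E))
    (a2 := e * V * 4 ^ n * (8 * ((((L : ℝ) + 2) ^ 2 + 2) / 2 ^ L))) (by positivity) (by positivity)
    (fun f => (hfix f).trans (le_of_eq (by ring))) hδ
  refine h.trans ?_
  have hL : (0 : ℝ) ≤ L := Nat.cast_nonneg L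
  have e1 : 2 * (e * ((48 + 16 * (L : ℝ) ^ 3) * (2 ^ n * (δ / 4 * ∑ y ∈ iv n M3, nsq (v y))) +
        128 * (((L : ℝ) + 2) ^ 2 + 2) / 2 ^ L * (V * Θ * 4 ^ n))) +
      (e * V * 4 ^ n * ((3456 + 24 * (L : ℝ) ^ 3) * E) * Θ' +
        e * V * 4 ^ n * (8 * ((((L : ℝ) + 2) ^ 2 + 2) / 2 ^ L)) * Θ' ^ 2) / (2 * δ) =
      e * ((24 + 8 * (L : ℝ) ^ 3) * (δ * 2 ^ n * ∑ y ∈ iv n M3, nsq (v y)) +
        V * 4 ^ n * ((1728 + 12 * (L : ℝ) ^ 3) * (Θ' * E / δ) +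
          (((L : ℝ) + 2) ^ 2 + 2) * ((256 * Θ + 4 * (Θ' ^ 2 / δ)) / 2 ^ L))) := by
    field_simp
    ring
  rw [e1]
  have c1 : 24 + 8 * (L : ℝ) ^ 3 ≤ 1728 * (1 + (L : ℝ)) ^ 3 := by
    nlinarith [pow_nonneg hL 2, pow_nonneg hL 3]
  have c2 : 1728 + 12 * (L : ℝ) ^ 3 ≤ 1728 * (1 + (L : ℝ)) ^ 3 := by
    nlinarith [pow_nonneg hL 2, pow_nonneg hL 3]
  have c3 : (((L : ℝ) + 2) ^ 2 + 2) ≤ 6 * (1 + (L : ℝ)) ^ 3 := by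
    nlinarith [pow_nonneg hL 2, pow_nonneg hL 3]
  have p1 : 0 ≤ δ * 2 ^ n * ∑ y ∈ iv n M3, nsq (v y) := by positivity
  have p2 : 0 ≤ Θ' * E / δ := by positivity
  have p3 : 0 ≤ Θ' ^ 2 / δ := by positivity
  have p4 : (0 : ℝ) < 2 ^ L := by positivity
  have q3 : (((L : ℝ) + 2) ^ 2 + 2) * ((256 * Θ + 4 * (Θ' ^ 2 / δ)) / 2 ^ L) ≤
      1728 * (1 + (L : ℝ)) ^ 3 * ((Θ + Θ' ^ 2 / δ) / 2 ^ L) := by
    calc (((L : ℝ) + 2) ^ 2 + 2) * ((256 * Θ + 4 * (Θ' ^ 2 / δ)) / 2 ^ L)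
        ≤ (6 * (1 + (L : ℝ)) ^ 3) * ((288 * (Θ + Θ' ^ 2 / δ)) / 2 ^ L) :=
          mul_le_mul c3 (div_le_div_of_nonneg_right (by linarith) p4.le) (by positivity)
            (by positivity)
      _ = _ := by ring
  calc e * ((24 + 8 * (L : ℝ) ^ 3) * (δ * 2 ^ n * ∑ y ∈ iv n M3, nsq (v y)) +
        V * 4 ^ n * ((1728 + 12 * (L : ℝ) ^ 3) * (Θ' * E / δ) +
          (((L : ℝ) + 2) ^ 2 + 2) * ((256 * Θ + 4 * (Θ' ^ 2 / δ)) / 2 ^ L)))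
      ≤ e * ((1728 * (1 + (L : ℝ)) ^ 3) * (δ * 2 ^ n * ∑ y ∈ iv n M3, nsq (v y)) +
        V * 4 ^ n * ((1728 * (1 + (L : ℝ)) ^ 3) * (Θ' * E / δ) +
          1728 * (1 + (L : ℝ)) ^ 3 * ((Θ + Θ' ^ 2 / δ) / 2 ^ L))) := by
        refine mul_le_mul_of_nonneg_left (add_le_add (mul_le_mul_of_nonneg_right c1 p1)
          (mul_le_mul_of_nonneg_left (add_le_add (mul_le_mul_of_nonneg_right c2 p2) q3)
          (by positivity))) he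
    _ = _ := by ring

end

end Vale.Agent.P141.H64
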