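import Vale.Agent.P141.H64.SignA

/-!
# P141, line (A): the choice of `δ`, `L` and the composition of the two bounds
-/

namespace Vale.Agent.P141.H64

open Finset Matrix

noncomputable section

/-- **The choice `δ = √E`, `2 ^ L ≥ (Θ + Θ'² + 1) / E`.** -/
theorem pick_L {E Θ Θ' : ℝ} (hE : 0 < E) (hE1 : E ≤ 1) (h1 : 0 ≤ Θ) :
    ∃ L : ℕ, 1 + (L : ℝ) ≤ 4 * (1 + Real.log ((Θ + Θ' ^ 2 + 1) / E)) ∧
      (Θ + Θ' ^ 2 + 1) / 2 ^ L ≤ E ∧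
      ∀ S V : ℝ, 0 ≤ S → 0 ≤ V →
        √E * S + V * (Θ' * E / √E + (Θ + Θ' ^ 2 / √E) / 2 ^ L) ≤ √E * (S + V * (Θ' + 1)) := by
  set X : ℝ := (Θ + Θ' ^ 2 + 1) / E with hX
  have hp : 1 ≤ Θ + Θ' ^ 2 + 1 := by nlinarith [sq_nonneg Θ']
  have hX1 : 1 ≤ X := by
    rw [hX, le_div_iff₀ hE]
    linarith
  have hX0 : 0 < X := by linarith
  have hl : 0 ≤ Real.log X := Real.log_nonneg hX1
  have hl2 : (1 : ℝ) / 2 ≤ Real.log 2 := by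
    have := Real.log_two_gt_d9
    linarith
  set L : ℕ := ⌈Real.log X / Real.log 2⌉₊ with hL
  have hL1 : Real.log X / Real.log 2 ≤ L := Nat.le_ceil _
  have hL2 : (L : ℝ) < Real.log X / Real.log 2 + 1 := Nat.ceil_lt_add_one (by positivity)
  have hlp : 0 < Real.log 2 := by linarith
  have hXL : X ≤ 2 ^ L := by
    rw [div_le_iff₀ hlp] at hL1
    have h3 : Real.log X ≤ Real.log ((2 : ℝ) ^ L) := by
      rw [Real.log_pow]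
      exact hL1
    exact (Real.log_le_log_iff hX0 (by positivity)).1 h3
  have hq : (Θ + Θ' ^ 2 + 1) / 2 ^ L ≤ E := by
    rw [div_le_iff₀ (by positivity)]
    rw [hX, div_le_iff₀ hE] at hXL
    linarith
  refine ⟨L, ?_, hq, ?_⟩
  · have h4 : Real.log X / Real.log 2 ≤ 2 * Real.log X := by
      rw [div_le_iff₀ hlp]
      nlinarith
    linarith
  · intro S V hS hV
    have hs : 0 < √E := Real.sqrt_pos.2 hE
    have hs1 : √E ≤ 1 := Real.sqrt_le_one.2 hE1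
    have hss : √E * √E = E := Real.mul_self_sqrt hE.le
    have a1 : Θ' * E / √E = Θ' * √E := by
      rw [div_eq_iff hs.ne', mul_assoc, hss]
    have a2 : (Θ + Θ' ^ 2 / √E) / 2 ^ L ≤ √E := by
      have b1 : Θ + Θ' ^ 2 / √E ≤ (Θ + Θ' ^ 2 + 1) / √E := by
        rw [le_div_iff₀ hs, add_mul, div_mul_cancel₀ _ hs.ne']
        nlinarith
      calc (Θ + Θ' ^ 2 / √E) / 2 ^ L ≤ ((Θ + Θ' ^ 2 + 1) / √E) / 2 ^ L :=
            div_le_div_of_nonneg_right b1 (by positivity)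
        _ = ((Θ + Θ' ^ 2 + 1) / 2 ^ L) / √E := by ring
        _ ≤ E / √E := div_le_div_of_nonneg_right hq hs.le
        _ = √E := by rw [div_eq_iff hs.ne', hss]
    rw [a1]
    calc √E * S + V * (Θ' * √E + (Θ + Θ' ^ 2 / √E) / 2 ^ L)
        ≤ √E * S + V * (Θ' * √E + √E) := by gcongr
      _ = √E * (S + V * (Θ' + 1)) := by ring

section

open Vale.Agent.P141.PL (iv ix)
open Vale.Agent.P141.H43 (nsq nsq_nonneg)
open Vale.Agent.P141.H841 (Rm Rs ep)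
open Vale.Agent.P141.H876 (En)

open scoped Classical

variable {ι J : Type*} [Fintype ι] [Fintype J]

variable {Mx : ℕ → ℤ → Matrix ι ι ℝ} {o x1 T M3 : ℤ} {n : ℕ} {s : ℕ → ℤ → ℤ → ℝ}

/-- **(S1), any signs with energy `0 < E ≤ 1`, final form.** -/
theorem S1opt (hs1 : ∀ k a b, |s k a b| ≤ 1) (ho : o = 1 ∨ o = -1) {c : J → ℝ}
    (hc : ∀ j, 0 ≤ c j) {u : J → ι → ℝ} {Θ' : ℝ} (hu : ∑ j, c j * nsq (u j) ≤ Θ')
    (hX : ∀ a, ∑ i ∈ range n, En Mx n T x1 M3 (i + 1) a ≤ 2 ^ n * Qf c u a)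
    {W : ℕ → ℤ → ℤ → ℝ} {e : ℝ} (he : 0 ≤ e) (hW0 : ∀ k x0 y, 0 ≤ W k x0 y)
    (hW : ∀ k ≤ n, ∀ j y, ∑ x0 ∈ iv k j, W k x0 y ≤ e * 2 ^ k)
    {θ : ℕ → ℤ → ℝ} (hθ0 : ∀ k m, 0 ≤ θ k m)
    (hθ : ∀ k m a, nsq (Mx k m *ᵥ a) ≤ θ k m * nsq a) {Θ : ℝ} (hΘ0 : 0 ≤ Θ)
    (hΘ : ∑ i ∈ range n, ep θ n T x1 M3 i ≤ Θ * 2 ^ n) {al : ℕ → ℤ → Prop} {v : ℤ → ι → ℝ} {V : ℝ}
    (hV0 : 0 ≤ V) (hV : ∀ k ≤ n, ∀ y, al k y → ∑ y' ∈ iv k (ix k y), nsq (v y') ≤ V * 2 ^ k)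
    (hal : ∀ y ∈ iv n M3, ∀ k ≤ n, ¬ al k y → ∀ x0, W k x0 y = 0) (sh : ℤ)
    {E : ℝ} (hE : 0 < E) (hE1 : E ≤ 1)
    (hfix : ∀ (L : ℕ) (f : ι → ℝ), ∑ y ∈ iv n M3, ∑ k ∈ range (n + 1), ∑ x0 ∈ iv n T,
      W k x0 y * nsq (v y) *
        nsq ((Rs Mx o x1 s n sh k x0 (ix k (y - sh)) - Rm Mx o x1 s n k x0 y) *ᵥ f) ≤
      e * V * 4 ^ n * ((3456 + 24 * (L : ℝ) ^ 3) * (E * nsq f) +
        8 * ((((L : ℝ) + 2) ^ 2 + 2) / 2 ^ L) * Qf c u f)) :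
    ∑ y ∈ iv n M3, ∑ k ∈ range (n + 1), ∑ x0 ∈ iv n T, W k x0 y *
        nsq ((Rs Mx o x1 s n sh k x0 (ix k (y - sh)) - Rm Mx o x1 s n k x0 y) *ᵥ v y) ≤
      110592 * e * (1 + Real.log ((Θ + Θ' ^ 2 + 1) / E)) ^ 3 *
        (√E * (2 ^ n * ∑ y ∈ iv n M3, nsq (v y) + V * 4 ^ n * (Θ' + 1))) := by
  obtain ⟨L, l1, _, l3⟩ := pick_L (Θ' := Θ') hE hE1 hΘ0
  have hs : 0 < √E := Real.sqrt_pos.2 hE
  have hS : 0 ≤ ∑ y ∈ iv n M3, nsq (v y) := sum_nonneg fun y _ => nsq_nonneg _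
  refine (S1F (s := s) hs1 ho hc hu hX he hW0 hW hθ0 hθ hΘ0 hΘ hV0 hV hal L sh hE.le (hfix L)
    hs).trans ?_
  have h3 := l3 (2 ^ n * ∑ y ∈ iv n M3, nsq (v y)) (V * 4 ^ n) (by positivity) (by positivity)
  rw [← mul_assoc] at h3
  have h4 : (1 + (L : ℝ)) ^ 3 ≤ (4 * (1 + Real.log ((Θ + Θ' ^ 2 + 1) / E))) ^ 3 :=
    pow_le_pow_left₀ (by positivity) l1 3
  have h5 : 0 ≤ √E * (2 ^ n * ∑ y ∈ iv n M3, nsq (v y) + V * 4 ^ n * (Θ' + 1)) := by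
    have : 0 ≤ Θ' := (sum_nonneg fun j _ => mul_nonneg (hc j) (nsq_nonneg _)).trans hu
    positivity
  calc 1728 * e * (1 + (L : ℝ)) ^ 3 * (√E * 2 ^ n * ∑ y ∈ iv n M3, nsq (v y) +
        V * 4 ^ n * (Θ' * E / √E + (Θ + Θ' ^ 2 / √E) / 2 ^ L))
      ≤ 1728 * e * (1 + (L : ℝ)) ^ 3 *
        (√E * (2 ^ n * ∑ y ∈ iv n M3, nsq (v y) + V * 4 ^ n * (Θ' + 1))) :=
        mul_le_mul_of_nonneg_left h3 (by positivity)
    _ ≤ 1728 * e * (4 * (1 + Real.log ((Θ + Θ' ^ 2 + 1) / E))) ^ 3 *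
        (√E * (2 ^ n * ∑ y ∈ iv n M3, nsq (v y) + V * 4 ^ n * (Θ' + 1))) :=
        mul_le_mul_of_nonneg_right (mul_le_mul_of_nonneg_left h4 (by positivity)) h5
    _ = _ := by ring

end

/-- **The composition of the sign-blind and of the signed bound.** -/
theorem comp_num {N A X E a m : ℝ} (hA : 0 ≤ A) (hX : 1 ≤ X) (hE : 0 < E) (ha : 0 < a)
    (hm : 0 ≤ m) (h1 : N ≤ A * X ^ (-a)) (h2 : N ≤ A * (X ^ m * E ^ (1 / 2 : ℝ))) :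
    N ≤ A * (X ^ (-(a / 2)) * E ^ (a / (4 * (a + m)))) := by
  have hX0 : 0 < X := by linarith
  have ham : 0 < a + m := by linarith
  rcases hA.eq_or_lt with hA0 | hA0
  · rw [← hA0, zero_mul] at h1 ⊢
    exact h1
  rcases le_or_gt N 0 with hN | hN
  · exact hN.trans (mul_nonneg hA (by positivity))
  set M : ℝ := N / A with hM
  have hM0 : 0 < M := div_pos hN hA0
  have g1 : M ≤ X ^ (-a) := by rw [hM, div_le_iff₀ hA0, mul_comm]; exact h1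
  have g2 : M ≤ X ^ m * E ^ (1 / 2 : ℝ) := by rw [hM, div_le_iff₀ hA0, mul_comm]; exact h2
  set l : ℝ := a / (2 * (a + m)) with hl
  have hl0 : 0 ≤ l := by positivity
  have hl1 : l ≤ 1 := by
    rw [hl, div_le_one (by positivity)]
    linarith
  have g3 : M ≤ (X ^ (-a)) ^ (1 - l) * (X ^ m * E ^ (1 / 2 : ℝ)) ^ l := by
    calc M = M ^ (1 - l) * M ^ l := by
          rw [← Real.rpow_add hM0, sub_add_cancel, Real.rpow_one]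
      _ ≤ _ := mul_le_mul (Real.rpow_le_rpow hM0.le g1 (by linarith))
        (Real.rpow_le_rpow hM0.le g2 hl0) (by positivity) (by positivity)
  have g4 : (X ^ (-a)) ^ (1 - l) * (X ^ m * E ^ (1 / 2 : ℝ)) ^ l =
      X ^ (-(a / 2)) * E ^ (a / (4 * (a + m))) := by
    rw [Real.mul_rpow (by positivity) (by positivity), ← Real.rpow_mul hX0.le,
      ← Real.rpow_mul hX0.le, ← Real.rpow_mul hE.le, ← mul_assoc, ← Real.rpow_add hX0]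
    have e1 : -a * (1 - l) + m * l = -(a / 2) := by
      rw [hl]
      field_simp
      ring
    have e2 : 1 / 2 * l = a / (4 * (a + m)) := by
      rw [hl]
      field_simp
      ring
    rw [e1, e2]
  rw [g4] at g3
  rw [hM, div_le_iff₀ hA0, mul_comm] at g3
  exact g3

end

end Vale.Agent.P141.H64
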