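import Vale.Agent.P141.H64.SignB
import Vale.Agent.P141.H795.SignE
import Vale.Agent.P141.H876.Red
import Vale.Agent.P141.H841.S3e

/-!
# P141, line (A): the numbers of one slot with any signs and small energy

`HypN` : the data of one slot at one `(T, x₁, M₃)`; `NB` : the signed number.

* `S1s`, `S1s_succ`, `S0s`, `S2s`, `S3z` : the parts (S1), (S1) at `k + 1`, (S0), (S2), (S3).
-/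

namespace Vale.Agent.P141.H64

open Finset Matrix
open Vale.Agent.P141.PL (iv ix hs mem_iv ix_ix card_iv)
open Vale.Agent.P141.H43 (nsq nsq_nonneg)
open Vale.Agent.P141.H841 (Lm Rm Rs ep)
open Vale.Agent.P141.H876 (En)

noncomputable section

open scoped Classical

variable {ι J : Type*} [Fintype ι] [Fintype J]

/-- The data of one slot at one `(T, x₁, M₃)`: signs, energy form, norms, END energy. -/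
structure HypN (Mx : ℕ → ℤ → Matrix ι ι ℝ) (o x1 T M3 : ℤ) (n : ℕ) (s : ℕ → ℤ → ℤ → ℝ)
    (c : J → ℝ) (u : J → ι → ℝ) (θ : ℕ → ℤ → ℝ) (Θ Θ' E : ℝ) : Prop where
  sgn : ∀ k a b, |s k a b| ≤ 1
  ori : o = 1 ∨ o = -1
  c0 : ∀ j, 0 ≤ c j
  u1 : ∑ j, c j * nsq (u j) ≤ Θ'
  hX : ∀ a, ∑ i ∈ range n, En Mx n T x1 M3 (i + 1) a ≤ 2 ^ n * Qf c u a
  t0 : ∀ k m, 0 ≤ θ k m
  th : ∀ k m a, nsq (Mx k m *ᵥ a) ≤ θ k m * nsq a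
  T0 : 0 ≤ Θ
  Th : ∑ i ∈ range n, ep θ n T x1 M3 i ≤ Θ * 2 ^ n
  E0 : 0 ≤ E
  en : ∀ f p, M3 - 1 ≤ ix n p → ix n p ≤ M3 + 1 →
    ∑ x0 ∈ iv n T, nsq (Rm Mx o x1 s n 0 x0 p *ᵥ f) ≤ 2 ^ n * (E * nsq f)

/-- the signed number of a slot, `S = ∑ |v y|²` -/
def NB (n L : ℕ) (S V Θ Θ' E δ : ℝ) : ℝ :=
  δ * 2 ^ n * S + V * 4 ^ n * (Θ' * E / δ + (Θ + Θ' ^ 2 / δ) / 2 ^ L)

variable {Mx : ℕ → ℤ → Matrix ι ι ℝ} {o x1 T M3 : ℤ} {n : ℕ} {s : ℕ → ℤ → ℤ → ℝ}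
  {c : J → ℝ} {u : J → ι → ℝ} {θ : ℕ → ℤ → ℝ} {Θ Θ' E : ℝ}

theorem HypN.Θ'0 (h : HypN Mx o x1 T M3 n s c u θ Θ Θ' E) : 0 ≤ Θ' :=
  (sum_nonneg fun j _ => mul_nonneg (h.c0 j) (nsq_nonneg _)).trans h.u1

/-- **(S1).** -/
theorem S1s (h : HypN Mx o x1 T M3 n s c u θ Θ Θ' E)
    {W : ℕ → ℤ → ℤ → ℝ} {e : ℝ} (he : 0 ≤ e) (hW0 : ∀ k x0 y, 0 ≤ W k x0 y)
    (hW : ∀ k ≤ n, ∀ j y, ∑ x0 ∈ iv k j, W k x0 y ≤ e * 2 ^ k)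
    {al : ℕ → ℤ → Prop} {v : ℤ → ι → ℝ} {V : ℝ}
    (hV0 : 0 ≤ V) (hV : ∀ k ≤ n, ∀ y, al k y → ∑ y' ∈ iv k (ix k y), nsq (v y') ≤ V * 2 ^ k)
    (hal : ∀ y ∈ iv n M3, ∀ k ≤ n, ¬ al k y → ∀ x0, W k x0 y = 0) (L : ℕ) (sh : ℤ)
    {δ : ℝ} (hδ : 0 < δ) :
    ∑ y ∈ iv n M3, ∑ k ∈ range (n + 1), ∑ x0 ∈ iv n T, W k x0 y *
        nsq ((Rs Mx o x1 s n sh k x0 (ix k (y - sh)) - Rm Mx o x1 s n k x0 y) *ᵥ v y) ≤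
      1728 * e * (1 + (L : ℝ)) ^ 3 * NB n L (∑ y ∈ iv n M3, nsq (v y)) V Θ Θ' E δ :=
  S1F (s := s) h.sgn h.ori h.c0 h.u1 h.hX he hW0 hW h.t0 h.th h.T0 h.Th hV0 hV hal L sh h.E0
    (fun f => H795.SE.S1f (s := s) h.sgn h.ori (h.en f) (h.hX f) he hW0 hW
      (fun y => nsq_nonneg (v y)) hV0 hV hal L sh) hδ

/-- the END energy at the points themselves -/
theorem endE (h : HypN Mx o x1 T M3 n s c u θ Θ Θ' E) (v : ℤ → ι → ℝ) :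
    ∑ y ∈ iv n M3, ∑ x0 ∈ iv n T, nsq (Rm Mx o x1 s n 0 x0 y *ᵥ v y) ≤
      2 ^ n * E * ∑ y ∈ iv n M3, nsq (v y) := by
  rw [mul_sum]
  refine sum_le_sum fun y hy => ?_
  rw [mem_iv] at hy
  exact (h.en (v y) y (by omega) (by omega)).trans (le_of_eq (by ring))

/-- **(S1) at the scale `k + 1`.** -/
theorem S1s_succ (h : HypN Mx o x1 T M3 n s c u θ Θ Θ' E)
    {W : ℕ → ℤ → ℤ → ℝ} {e : ℝ} (he : 0 ≤ e) (hW0 : ∀ k x0 y, 0 ≤ W k x0 y)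
    (hW : ∀ k < n, ∀ j y, ∑ x0 ∈ iv k j, W k x0 y ≤ e * 2 ^ k)
    {al : ℕ → ℤ → Prop} {v : ℤ → ι → ℝ} {V : ℝ}
    (hV0 : 0 ≤ V) (hV : ∀ k ≤ n, ∀ y, al k y → ∑ y' ∈ iv k (ix k y), nsq (v y') ≤ V * 2 ^ k)
    (hup : ∀ y ∈ iv n M3, ∀ k < n, al k y → al (k + 1) y)
    (hal : ∀ y ∈ iv n M3, ∀ k < n, ¬ al k y → ∀ x0, W k x0 y = 0) (L : ℕ) (sh : ℤ)
    {δ : ℝ} (hδ : 0 < δ) :
    ∑ y ∈ iv n M3, ∑ k ∈ range n, ∑ x0 ∈ iv n T, W k x0 y *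
        nsq ((Rs Mx o x1 s n sh (k + 1) x0 (ix (k + 1) (y - sh)) -
          Rm Mx o x1 s n (k + 1) x0 y) *ᵥ v y) ≤
      1728 * e * (1 + (L : ℝ)) ^ 3 * NB n L (∑ y ∈ iv n M3, nsq (v y)) V Θ Θ' E δ :=
  H876.succ_ofY he (fun _ w0 w1 w2 => S1s h he w0 w1 hV0 hV w2 L sh hδ) hW0 hW hup hal

/-- **(S0).** -/
theorem S0s (h : HypN Mx o x1 T M3 n s c u θ Θ Θ' E)
    {W : ℕ → ℤ → ℤ → ℝ} {e : ℝ} (he : 0 ≤ e) (hW0 : ∀ k x0 y, 0 ≤ W k x0 y)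
    (hW : ∀ k < n, ∀ j y, ∑ x0 ∈ iv k j, W k x0 y ≤ e * 2 ^ k)
    {al : ℕ → ℤ → Prop} {v : ℤ → ι → ℝ} {V : ℝ}
    (hV0 : 0 ≤ V) (hV : ∀ k ≤ n, ∀ y, al k y → ∑ y' ∈ iv k (ix k y), nsq (v y') ≤ V * 2 ^ k)
    (hup : ∀ y ∈ iv n M3, ∀ k < n, al k y → al (k + 1) y)
    (hal : ∀ y ∈ iv n M3, ∀ k < n, ¬ al k y → ∀ x0, W k x0 y = 0) (L : ℕ) (sh : ℤ)
    {δ : ℝ} (hδ : 0 < δ) :
    ∑ y ∈ iv n M3, ∑ k ∈ range n, ∑ x0 ∈ iv n T, W k x0 y *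
        nsq ((Rm Mx o x1 s n k x0 y -
          Rs Mx o x1 s n sh (k + 1) x0 (ix (k + 1) (y - sh))) *ᵥ v y) ≤
      3456 * e * (1 + (L : ℝ)) ^ 3 * NB n L (∑ y ∈ iv n M3, nsq (v y)) V Θ Θ' E δ +
        2 * e * (2 ^ n * E * ∑ y ∈ iv n M3, nsq (v y)) := by
  refine (H876.S0_of he (fun _ w0 w1 w2 => S1s h he w0 w1 hV0 hV w2 L sh hδ) hW0 hW hup
    hal).trans ?_
  have h1 := mul_le_mul_of_nonneg_left (endE h v) he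
  linarith

/-- **(S2).** -/
theorem S2s (h : HypN Mx o x1 T M3 n s c u θ Θ Θ' E)
    {W : ℕ → ℤ → ℤ → ℝ} {e : ℝ} (he : 0 ≤ e) (hW0 : ∀ k x0 y, 0 ≤ W k x0 y)
    (hW : ∀ k ≤ n, ∀ j y, ∑ x0 ∈ iv k j, W k x0 y ≤ e * 2 ^ k)
    {al : ℕ → ℤ → Prop} {v : ℤ → ι → ℝ} {V : ℝ}
    (hV0 : 0 ≤ V) (hV : ∀ k ≤ n, ∀ y, al k y → ∑ y' ∈ iv k (ix k y), nsq (v y') ≤ V * 2 ^ k)
    (hup : ∀ y ∈ iv n M3, ∀ k < n, al k y → al (k + 1) y)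
    (hal : ∀ y ∈ iv n M3, ∀ k ≤ n, ¬ al k y → ∀ x0, W k x0 y = 0) (L : ℕ) (sh : ℤ)
    {δ : ℝ} (hδ : 0 < δ) :
    ∑ y ∈ iv n M3, ∑ k ∈ range n, ∑ x0 ∈ iv n T, W k x0 y *
        nsq ((Rs Mx o x1 s n sh k x0 (ix k (y - sh)) -
          Rs Mx o x1 s n sh (k + 1) x0 (ix (k + 1) (y - sh))) *ᵥ v y) ≤
      13824 * e * (1 + (L : ℝ)) ^ 3 * NB n L (∑ y ∈ iv n M3, nsq (v y)) V Θ Θ' E δ +
        2 * e * (2 ^ n * E * ∑ y ∈ iv n M3, nsq (v y)) := by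
  refine (H876.S2_of he (fun _ w0 w1 w2 => S1s h he w0 w1 hV0 hV w2 L sh hδ) hW0 hW hup
    hal).trans ?_
  have h1 := mul_le_mul_of_nonneg_left (endE h v) he
  linarith

/-- **(S3).** -/
theorem S3z {l : ℝ} {G K : ℕ → ℤ → Matrix ι ι ℝ} (hT : H420.Tr l n G K)
    (hM : ∀ k m a, Mx k m *ᵥ a = H483.mT l K k m a) (h : HypN Mx o x1 T M3 n s c u θ Θ Θ' E)
    {W : ℕ → ℤ → ℤ → ℝ} {e : ℝ} (he : 0 ≤ e) (hW0 : ∀ k x0 y, 0 ≤ W k x0 y)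
    (hW : ∀ k < n, ∀ j y, ∑ x0 ∈ iv k j, W k x0 y ≤ e * 2 ^ k)
    {al : ℕ → ℤ → Prop} {v : ℤ → ι → ℝ} {V : ℝ}
    (hV0 : 0 ≤ V) (hV : ∀ k ≤ n, ∀ y, al k y → ∑ y' ∈ iv k (ix k y), nsq (v y') ≤ V * 2 ^ k)
    {κ : ℝ} (hκ0 : 0 ≤ κ)
    (hκ : ∀ y ∈ iv n M3, ∀ x0 p, nsq (Rm Mx o x1 s n 0 x0 p *ᵥ v y) ≤ κ * nsq (v y))
    (hup : ∀ y ∈ iv n M3, ∀ k < n, al k y → al (k + 1) y)
    (hal : ∀ y ∈ iv n M3, ∀ k < n, ¬ al k y → ∀ x0, W k x0 y = 0) (L : ℕ) (sh : ℤ)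
    {δ : ℝ} (hδ : 0 < δ) :
    ∑ y ∈ iv n M3, ∑ k ∈ range n, ∑ x0 ∈ iv n T, W k x0 y *
        nsq ((Rs Mx o x1 s n sh k x0 (ix k (y - sh)) -
          Rs Mx o x1 s n sh (k + 1) x0 (ix (k + 1) (y - sh))) *ᵥ
            (Rs Mx o x1 s n sh (k + 1) x0 (ix (k + 1) (y - sh)) *ᵥ v y)) ≤
      3 * 10 ^ 8 * e * (1 + (L : ℝ)) ^ 5 * (2 ^ n * E * ∑ y ∈ iv n M3, nsq (v y)) +
        4608 * e * κ * (1 + (L : ℝ)) ^ 2 * (V * 4 ^ n * (Θ / 2 ^ L)) +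
        777600 * e * (1 + (L : ℝ)) ^ 6 * NB n L (∑ y ∈ iv n M3, nsq (v y)) V Θ Θ' E δ := by
  have h1 := H841.S3s (T := T) (x1 := x1) hT hM h.ori h.sgn he hW0 hW h.t0 h.th h.Th hV0 hV hκ0 hκ
    hup hal L sh (endE h v) (S1s_succ h he hW0 hW hV0 hV hup hal L sh hδ)
  refine h1.trans ?_
  have hL : (0 : ℝ) ≤ L := Nat.cast_nonneg L
  have hT0 := h.T0
  have c3 : (((L : ℝ) + 2) ^ 2 + 2) ≤ 6 * (1 + (L : ℝ)) ^ 2 := by nlinarith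
  have h2 : 768 * κ * ((((L : ℝ) + 2) ^ 2 + 2) / 2 ^ L * (V * Θ * 4 ^ n)) ≤
      768 * κ * (6 * (1 + (L : ℝ)) ^ 2 / 2 ^ L * (V * Θ * 4 ^ n)) := by
    gcongr
  have h3 := mul_le_mul_of_nonneg_left h2 he
  calc e * (3 * 10 ^ 8 * (1 + (L : ℝ)) ^ 5 * (2 ^ n * E * ∑ y ∈ iv n M3, nsq (v y)) +
        768 * κ * ((((L : ℝ) + 2) ^ 2 + 2) / 2 ^ L * (V * Θ * 4 ^ n))) +
      450 * (1 + (L : ℝ)) ^ 3 * (1728 * e * (1 + (L : ℝ)) ^ 3 *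
        NB n L (∑ y ∈ iv n M3, nsq (v y)) V Θ Θ' E δ)
      = 3 * 10 ^ 8 * e * (1 + (L : ℝ)) ^ 5 * (2 ^ n * E * ∑ y ∈ iv n M3, nsq (v y)) +
        e * (768 * κ * ((((L : ℝ) + 2) ^ 2 + 2) / 2 ^ L * (V * Θ * 4 ^ n))) +
        777600 * e * (1 + (L : ℝ)) ^ 6 * NB n L (∑ y ∈ iv n M3, nsq (v y)) V Θ Θ' E δ := by ring
    _ ≤ 3 * 10 ^ 8 * e * (1 + (L : ℝ)) ^ 5 * (2 ^ n * E * ∑ y ∈ iv n M3, nsq (v y)) +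
        e * (768 * κ * (6 * (1 + (L : ℝ)) ^ 2 / 2 ^ L * (V * Θ * 4 ^ n))) +
        777600 * e * (1 + (L : ℝ)) ^ 6 * NB n L (∑ y ∈ iv n M3, nsq (v y)) V Θ Θ' E δ := by
        linarith
    _ = _ := by ring

end

end Vale.Agent.P141.H64
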