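import Vale.Agent.P141.H841.Lay

/-!
# P141, line (A): from fixed vectors to all vectors

`H g = ∑ c_j (u_j . g) u_j`, `Q g = ∑ c_j (u_j . g)²`.  Every vector is `v = δ g + H g` with
`|δ g| ≤ |v|`, `Q (δ g) ≤ δ |v|² / 4`, and `|M (H g)|² ≤ |v|² / (4 δ) * ∑ c_j |M u_j|²`.
-/

namespace Vale.Agent.P141.H64

open Finset Matrix
open Vale.Agent.P141.H43 (nsq nsq_nonneg)
open Vale.Agent.P141.H841 (nsq_eq nsq_smul nsq_add_le)

noncomputable section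

variable {ι κ J : Type*} [Fintype ι] [Fintype κ] [Fintype J]

/-- the map `δ + H` -/
def Tl (c : J → ℝ) (u : J → κ → ℝ) (δ : ℝ) : (κ → ℝ) →ₗ[ℝ] (κ → ℝ) where
  toFun g := δ • g + ∑ j, (c j * (u j ⬝ᵥ g)) • u j
  map_add' a b := by
    simp only [dotProduct_add, mul_add, add_smul, sum_add_distrib, smul_add]
    abel
  map_smul' r a := by
    simp only [dotProduct_smul, smul_eq_mul, RingHom.id_apply, smul_add, smul_sum, smul_smul]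
    congr 1
    · rw [mul_comm]
    · exact sum_congr rfl fun j _ => by
        congr 1
        ring

theorem dot_H (c : J → ℝ) (u : J → κ → ℝ) (g : κ → ℝ) :
    g ⬝ᵥ (∑ j, (c j * (u j ⬝ᵥ g)) • u j) = ∑ j, c j * (u j ⬝ᵥ g) ^ 2 := by
  rw [dotProduct_sum]
  refine sum_congr rfl fun j _ => ?_
  rw [dotProduct_smul, smul_eq_mul, dotProduct_comm g (u j)]
  ring

theorem nsq_two (a h : κ → ℝ) : nsq (a + h) = nsq a + 2 * (a ⬝ᵥ h) + nsq h := by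
  unfold nsq
  rw [add_dotProduct, dotProduct_add, dotProduct_add, dotProduct_comm h a]
  ring

theorem nsq_two' (a h : κ → ℝ) : nsq (a - h) = nsq a - 2 * (a ⬝ᵥ h) + nsq h := by
  unfold nsq
  rw [sub_dotProduct, dotProduct_sub, dotProduct_sub, dotProduct_comm h a]
  ring

/-- **The splitting of a vector.** -/
theorem vec_split {c : J → ℝ} (hc : ∀ j, 0 ≤ c j) (u : J → κ → ℝ) {δ : ℝ} (hδ : 0 < δ)
    (v : κ → ℝ) : ∃ g : κ → ℝ, v = δ • g + ∑ j, (c j * (u j ⬝ᵥ g)) • u j ∧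
      nsq (δ • g) ≤ nsq v ∧ ∑ j, c j * (u j ⬝ᵥ g) ^ 2 ≤ nsq v / (4 * δ) ∧
      ∑ j, c j * (u j ⬝ᵥ (δ • g)) ^ 2 ≤ δ * nsq v / 4 := by
  have hQ0 : ∀ g : κ → ℝ, 0 ≤ ∑ j, c j * (u j ⬝ᵥ g) ^ 2 := fun g =>
    sum_nonneg fun j _ => mul_nonneg (hc j) (sq_nonneg _)
  have hinj : Function.Injective (Tl c u δ) := by
    rw [injective_iff_map_eq_zero]
    intro g hg
    have h1 : g ⬝ᵥ (δ • g + ∑ j, (c j * (u j ⬝ᵥ g)) • u j) = 0 := by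
      have : δ • g + ∑ j, (c j * (u j ⬝ᵥ g)) • u j = 0 := hg
      rw [this, dotProduct_zero]
    rw [dotProduct_add, dot_H, dotProduct_smul, smul_eq_mul] at h1
    have h2 : 0 ≤ g ⬝ᵥ g := nsq_nonneg g
    have h3 := hQ0 g
    have h4 : g ⬝ᵥ g = 0 := by nlinarith
    exact dotProduct_self_eq_zero.1 h4
  obtain ⟨g, hg⟩ := LinearMap.injective_iff_surjective.1 hinj v
  have hv : v = δ • g + ∑ j, (c j * (u j ⬝ᵥ g)) • u j := hg.symm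
  set h := ∑ j, (c j * (u j ⬝ᵥ g)) • u j with hh
  have hd : (δ • g) ⬝ᵥ h = δ * ∑ j, c j * (u j ⬝ᵥ g) ^ 2 := by
    rw [smul_dotProduct, hh, dot_H, smul_eq_mul]
  have e1 := nsq_two (δ • g) h
  have e2 := nsq_two' (δ • g) h
  rw [hd] at e1 e2
  have p1 := nsq_nonneg (δ • g - h)
  have p2 := nsq_nonneg h
  have p3 := hQ0 g
  have hQ : ∑ j, c j * (u j ⬝ᵥ g) ^ 2 ≤ nsq v / (4 * δ) := by
    rw [le_div_iff₀ (by positivity), hv, e1]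
    linarith
  refine ⟨g, hv, ?_, hQ, ?_⟩
  · rw [hv, e1]
    have : 0 ≤ δ * ∑ j, c j * (u j ⬝ᵥ g) ^ 2 := mul_nonneg hδ.le p3
    linarith
  · have e3 : ∑ j, c j * (u j ⬝ᵥ (δ • g)) ^ 2 = δ ^ 2 * ∑ j, c j * (u j ⬝ᵥ g) ^ 2 := by
      rw [mul_sum]
      refine sum_congr rfl fun j _ => ?_
      rw [dotProduct_smul, smul_eq_mul]
      ring
    rw [e3]
    refine (mul_le_mul_of_nonneg_left hQ (sq_nonneg δ)).trans (le_of_eq ?_)
    field_simp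

/-- the matrix on the second part -/
theorem nsq_H {c : J → ℝ} (hc : ∀ j, 0 ≤ c j) (u : J → κ → ℝ) (M : Matrix ι κ ℝ) (g : κ → ℝ) :
    nsq (M *ᵥ ∑ j, (c j * (u j ⬝ᵥ g)) • u j) ≤
      (∑ j, c j * (u j ⬝ᵥ g) ^ 2) * ∑ j, c j * nsq (M *ᵥ u j) := by
  have e1 : M *ᵥ ∑ j, (c j * (u j ⬝ᵥ g)) • u j = ∑ j, (c j * (u j ⬝ᵥ g)) • (M *ᵥ u j) := by
    rw [mulVec_sum]
    exact sum_congr rfl fun j _ => mulVec_smul _ _ _
  rw [e1, nsq_eq]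
  have h1 : ∀ i, (∑ j, (c j * (u j ⬝ᵥ g)) • (M *ᵥ u j)) i ^ 2 ≤
      (∑ j, c j * (u j ⬝ᵥ g) ^ 2) * ∑ j, c j * (M *ᵥ u j) i ^ 2 := by
    intro i
    rw [Finset.sum_apply]
    refine sum_sq_le_sum_mul_sum_of_sq_le_mul univ (fun j _ => mul_nonneg (hc j) (sq_nonneg _))
      (fun j _ => mul_nonneg (hc j) (sq_nonneg _)) fun j _ => le_of_eq ?_
    simp only [Pi.smul_apply, smul_eq_mul]
    ring
  refine (sum_le_sum fun i _ => h1 i).trans (le_of_eq ?_)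
  rw [← mul_sum, sum_comm]
  congr 1
  refine sum_congr rfl fun j _ => ?_
  rw [nsq_eq, mul_sum]

theorem dot_sq_le (a b : κ → ℝ) : (a ⬝ᵥ b) ^ 2 ≤ nsq a * nsq b := by
  rw [nsq_eq, nsq_eq]
  unfold dotProduct
  exact sum_mul_sq_le_sq_mul_sq univ a b

/-- the form at its own vectors -/
theorem sum_Q {c : J → ℝ} (hc : ∀ j, 0 ≤ c j) (u : J → κ → ℝ) :
    ∑ i, c i * ∑ j, c j * (u j ⬝ᵥ u i) ^ 2 ≤ (∑ j, c j * nsq (u j)) ^ 2 := by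
  have e1 : (∑ j, c j * nsq (u j)) ^ 2 = ∑ i, c i * ∑ j, c j * (nsq (u j) * nsq (u i)) := by
    rw [sq, sum_mul]
    refine sum_congr rfl fun i _ => ?_
    rw [mul_assoc, mul_sum]
    congr 1
    exact sum_congr rfl fun j _ => by ring
  rw [e1]
  exact sum_le_sum fun i _ => mul_le_mul_of_nonneg_left
    (sum_le_sum fun j _ => mul_le_mul_of_nonneg_left (dot_sq_le _ _) (hc j)) (hc i)

/-- **All vectors from the sign-blind bound and from the fixed vectors.** -/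
theorem split_sum {α β : Type*} (S : Finset α) {w : α → ℝ} (hw : ∀ a ∈ S, 0 ≤ w a) (y : α → β)
    (M : α → Matrix ι κ ℝ) (v : β → κ → ℝ) {c : J → ℝ} (hc : ∀ j, 0 ≤ c j) (u : J → κ → ℝ)
    {δ : ℝ} (hδ : 0 < δ) {B F : ℝ}
    (hB : ∀ g : β → κ → ℝ, (∀ b, nsq (g b) ≤ nsq (v b)) →
      (∀ b, ∑ j, c j * (u j ⬝ᵥ g b) ^ 2 ≤ δ * nsq (v b) / 4) →
      ∑ a ∈ S, w a * nsq (M a *ᵥ g (y a)) ≤ B)
    (hF : ∑ j, c j * ∑ a ∈ S, w a * nsq (v (y a)) * nsq (M a *ᵥ u j) ≤ F) :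
    ∑ a ∈ S, w a * nsq (M a *ᵥ v (y a)) ≤ 2 * B + F / (2 * δ) := by
  choose g hg using fun b => vec_split hc u hδ (v b)
  have hb := hB (fun b => δ • g b) (fun b => (hg b).2.1) (fun b => (hg b).2.2.2)
  have h1 : ∀ a ∈ S, w a * nsq (M a *ᵥ v (y a)) ≤ 2 * (w a * nsq (M a *ᵥ (δ • g (y a)))) +
      (2 * δ)⁻¹ * ∑ j, c j * (w a * nsq (v (y a)) * nsq (M a *ᵥ u j)) := by
    intro a ha
    obtain ⟨g1, _, g3, _⟩ := hg (y a)
    have e1 : M a *ᵥ v (y a) = M a *ᵥ (δ • g (y a)) +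
        M a *ᵥ ∑ j, (c j * (u j ⬝ᵥ g (y a))) • u j := by
      rw [← mulVec_add, ← g1]
    have hn : nsq (M a *ᵥ v (y a)) ≤ 2 * nsq (M a *ᵥ (δ • g (y a))) +
        2 * (nsq (v (y a)) / (4 * δ) * ∑ j, c j * nsq (M a *ᵥ u j)) := by
      rw [e1]
      refine (nsq_add_le _ _).trans (add_le_add le_rfl (mul_le_mul_of_nonneg_left ?_ zero_le_two))
      refine (nsq_H hc u (M a) (g (y a))).trans (mul_le_mul_of_nonneg_right g3 ?_)
      exact sum_nonneg fun j _ => mul_nonneg (hc j) (nsq_nonneg _)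
    refine (mul_le_mul_of_nonneg_left hn (hw a ha)).trans (le_of_eq ?_)
    have e2 : ∑ j, c j * (w a * nsq (v (y a)) * nsq (M a *ᵥ u j)) =
        w a * nsq (v (y a)) * ∑ j, c j * nsq (M a *ᵥ u j) := by
      rw [mul_sum]
      exact sum_congr rfl fun j _ => by ring
    rw [e2]
    field_simp
    ring
  refine (sum_le_sum h1).trans ?_
  rw [sum_add_distrib, ← mul_sum, ← mul_sum, sum_comm]
  have h2 : ∑ j, ∑ a ∈ S, c j * (w a * nsq (v (y a)) * nsq (M a *ᵥ u j)) ≤ F := by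
    simp only [← mul_sum]
    exact hF
  have h3 : (2 * δ)⁻¹ * ∑ j, ∑ a ∈ S, c j * (w a * nsq (v (y a)) * nsq (M a *ᵥ u j)) ≤
      F / (2 * δ) := by
    rw [div_eq_inv_mul]
    exact mul_le_mul_of_nonneg_left h2 (by positivity)
  exact add_le_add (mul_le_mul_of_nonneg_left hb zero_le_two) h3

/-- the same in the letters of `H876.S1a` -/
theorem split_sum3 (Y : Finset ℤ) (K : Finset ℕ) (X : Finset ℤ) {W : ℕ → ℤ → ℤ → ℝ}
    (hW : ∀ k x y, 0 ≤ W k x y) (M : ℕ → ℤ → ℤ → Matrix ι κ ℝ) (v : ℤ → κ → ℝ) {c : J → ℝ}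
    (hc : ∀ j, 0 ≤ c j) (u : J → κ → ℝ) {δ : ℝ} (hδ : 0 < δ) {B F : ℝ}
    (hB : ∀ g : ℤ → κ → ℝ, (∀ y, nsq (g y) ≤ nsq (v y)) →
      (∀ y, ∑ j, c j * (u j ⬝ᵥ g y) ^ 2 ≤ δ * nsq (v y) / 4) →
      ∑ y ∈ Y, ∑ k ∈ K, ∑ x ∈ X, W k x y * nsq (M k x y *ᵥ g y) ≤ B)
    (hF : ∑ j, c j * ∑ y ∈ Y, ∑ k ∈ K, ∑ x ∈ X,
      W k x y * nsq (v y) * nsq (M k x y *ᵥ u j) ≤ F) :
    ∑ y ∈ Y, ∑ k ∈ K, ∑ x ∈ X, W k x y * nsq (M k x y *ᵥ v y) ≤ 2 * B + F / (2 * δ) := by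
  have e : ∀ f : ℤ → ℕ → ℤ → ℝ, ∑ y ∈ Y, ∑ k ∈ K, ∑ x ∈ X, f y k x =
      ∑ a ∈ Y ×ˢ K ×ˢ X, f a.1 a.2.1 a.2.2 := by
    intro f
    rw [sum_product]
    exact sum_congr rfl fun y _ => by rw [sum_product]
  have h := split_sum (Y ×ˢ K ×ˢ X) (w := fun a => W a.2.1 a.2.2 a.1)
    (fun a _ => hW _ _ _) (fun a => a.1) (fun a => M a.2.1 a.2.2 a.1) v hc u hδ (B := B) (F := F)
    (fun g h1 h2 => by
      have := hB g h1 h2
      rw [e (fun y k x => W k x y * nsq (M k x y *ᵥ g y))] at this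
      exact this)
    (by
      refine le_trans (le_of_eq (sum_congr rfl fun j _ => ?_)) hF
      rw [e (fun y k x => W k x y * nsq (v y) * nsq (M k x y *ᵥ u j))])
  rw [e (fun y k x => W k x y * nsq (M k x y *ᵥ v y))]
  exact h

end

end Vale.Agent.P141.H64
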