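import Vale.Agent.P141.H64.HSt3

/-!
# P141, line (A): natural data of the definite families `cA`, `cb`, `mC / √ez`
-/

namespace Vale.Agent.P141.H64

open Finset Matrix Vale.Agent.P141.PL
open Vale.Agent.P141.H736 (Path)
open Vale.Agent.P141.PL.H315 (Tri)
open Vale.Agent.P141.H958 (mem_Aff)
open Vale.Agent.P141.H48 (US ES BSl Qth)
open Vale.Agent.P141.H205 (FamK ownK pwrK)
open Vale.Agent.P141.H971 (Fam0)
open Vale.Agent.P141.H305 (Cls)
open Vale.Agent.P141.H80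
open Vale.Agent.P141.H401

noncomputable section

open scoped Classical

/-! ### The weighted cut -/

section low

variable {κ : Type*} [Fintype κ] [DecidableEq κ] {N : ℕ} {R S : ℤ}

theorem ownK_lowW {Q : ℕ → ℤ → ℤ → Prop} {K : ℤ → ℕ → ℤ → Matrix κ κ ℝ}
    {F : ℕ → ℤ → ℤ → κ → ℝ} {c : ℝ} : ownK N R S Q (lowW Q K c F) ≤ ownK N R S Q F := by
  unfold H205.ownK
  refine sum_le_sum fun i hi => mul_le_mul_of_nonneg_left ?_ (by positivity)
  obtain ⟨_, _, _, h4⟩ := mem_Aff.1 hi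
  rw [H205.GQ_eq, H205.GQ_eq]
  exact own_lowG (F := F) (Pr := prW K c F) h4 (prW_tr K c F _ _ _) (prW_idem K c F _ _ _)
    (Subset.refl _) fun _ => transpose_one

/-- **The low part of the weighted cut.** -/
theorem famK_lowW {X : Finset ℤ} {q : ℤ → ℕ → ℤ → ℤ → Prop} {b : ℤ → ℕ → ℤ → ℤ → κ → ℝ}
    {K : ℤ → ℕ → ℤ → Matrix κ κ ℝ} {cP G D c : ℝ} (h : FamK N R S X q b cP G D) :
    FamK N R S X q (fun x0 => lowW (q x0) K c (b x0)) cP G D where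
  path := fun _ _ l => lowW_path N R S l
  zero := fun _ _ => lowW_zero
  pack := h.pack
  own := (sum_le_sum fun _ _ => ownK_lowW).trans h.own
  pow := (sum_le_sum fun _ _ => pwrK_lowW).trans h.pow

end low

/-! ### Scalar factors -/

section smul

variable {κ : Type*} [Fintype κ] {N : ℕ} {R S : ℤ}

/-- power of a multiple of a family -/
theorem pwrK_smul (Q : ℕ → ℤ → ℤ → Prop) (F : ℕ → ℤ → ℤ → κ → ℝ) (a : ℝ) :
    pwrK N R S Q (fun k x y => a • F k x y) = a ^ 2 * pwrK N R S Q F := by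
  unfold H205.pwrK
  simp only [mul_sum]
  refine sum_congr rfl fun i _ => sum_congr rfl fun x _ => sum_congr rfl fun y _ => ?_
  rw [smul_dotProduct, dotProduct_smul, smul_eq_mul, smul_eq_mul]
  ring

end smul

/-! ### Class data -/

section cls

variable {ι : Type} [Fintype ι] [DecidableEq ι] {p : H401.Num} {n K : ℕ} {s r P ez : ℝ} {U : Tri}
  {g : ℤ → ℤ → ℝ} {u v : ℤ → ℤ → ι → ℝ} {F1 F2 F3 : ℕ → Pt → ℝ} {Q1 Q2 Q3 : ℕ → Pt → Prop}
  {x : Pt} {tt : ℝ}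

omit [DecidableEq ι] in
/-- the family `cA` -/
theorem fam0_cA (hΛ : 1 ≤ p.Lm) (hcP : 0 ≤ p.cP) (hF : US n tt p.e p.cP F1)
    (hB : BSl n p.e p.cP F1 Q1) (hK : K ≤ n) (hc : Cls K x s r P U g u v) (t₀ : ℤ) :
    Fam0 K (cx K x).2.2 (cx K x).2.1 (iv K t₀) (fun x0 k n m => qA p U K Q1 k (ix k x0) n m)
      (cA p s r U K g F1 Q1) (p.cP + 2)
      (1920000 * p.Lm ^ 2 * (p.cP + 2) * (tt ^ 2 * p.e) * (s * √s) * 8 ^ K)
      (4 * p.Lm * (p.cP + 2) * p.e * s * 8 ^ K) :=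
  fam0_low (c := p.th s r ^ 2) (H508.fam0_Cls hΛ hcP hF hB hK hc t₀)

/-- the family `cb`, natural own number -/
theorem famK_cb (hΛ : 1 ≤ p.Lm) (hcP : 0 ≤ p.cP) (hF : US n tt p.e p.cP F3)
    (hB : BSl n p.e p.cP F3 Q3) (hK : K ≤ n) (hc : Cls K x s r P U g u v) (t₀ : ℤ) :
    FamK K (cx K x).1 (cx K x).2.1 (iv K t₀) (fun x0 k n m => qB p U K Q3 k (ix k x0) n m)
      (cb p s r U K u F3 Q3) (p.cP + 2)
      (5760000 * p.Lm ^ 2 * (p.cP + 2) * (tt ^ 2 * p.e) * (s * √s) * 8 ^ K)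
      (4 * p.Lm * (p.cP + 2) * p.e * s * 8 ^ K) :=
  famK_lowW (K := H677.KT (p.lam s r) u) (c := p.be s r ^ 2 / √(p.lam s r))
    (famK_low (c := p.th s r ^ 2) (H508.famK_bCls hΛ hcP hF hB hK hc t₀))

omit [DecidableEq ι] in
/-- the family `mC`, given stops -/
theorem famK_mC (hΛ : 1 ≤ p.Lm) (hez : 0 ≤ ez) (hcP : 0 ≤ p.cP) (hB : BSl n ez p.cP F2 Q2)
    (hK : K ≤ n) (hc : Cls K x s r P U g u v) (t₀ : ℤ) :
    FamK K (cx K x).1 (cx K x).2.2 (iv K t₀) (fun x0 => Qth p.Lm U.2.1 K Q2 x0)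
      (fun x0 k x z => mC p U K v F2 x0 k z x) (p.cP + 2)
      (8 * p.Lm ^ 2 * (p.cP + 2) * ez ^ 2 * (H315.A2 K U.2.1 x.1 x.2.2 *
        √(H48.A4 K U.2.1 x.1 x.2.2)) * 8 ^ K)
      (4 * p.Lm * (p.cP + 2) * ez * s * 8 ^ K) := by
  have h := H508.famK_C (v := v) (a := U.2.1) (F := F2) (x1 := x.1) (x3 := x.2.2) hΛ hez hcP hB hK
    (fun w hw z hz => by
      rw [← H769.iv_pt] at hw hz
      exact ⟨(hc.U_v w hw z hz).1, hc.v_le w hw z hz⟩) t₀
  refine famK_mono h le_rfl ?_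
  have hL : 0 ≤ 4 * p.Lm * (p.cP + 2) * ez := by
    have : 0 < p.Lm := by linarith
    positivity
  exact mul_le_mul_of_nonneg_right (mul_le_mul_of_nonneg_left hc.U_v2 hL) (by positivity)

end cls

end

end Vale.Agent.P141.H64
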